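import Mathlib

/-!
The free completion of a labelled graph with deterministic signed letters to an action of the
free group: points are pairs (reduced word, vertex) in normal form.
-/

noncomputable section

open Classical

namespace Vale.Agent.P090

/-- The inverse of a signed letter. -/
def flipL {Λ : Type*} (t : Λ × Bool) : Λ × Bool := (t.1, !t.2)

@[simp] theorem flipL_flipL {Λ : Type*} (t : Λ × Bool) : flipL (flipL t) = t := by
  simp [flipL]

/-- A deterministic, reversible labelled graph. -/
structure LGraph (Λ V : Type) where
  step : Λ × Bool → V → Option V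
  rev : ∀ t v v', step t v = some v' → step (flipL t) v' = some v

variable {Λ V : Type} (A : LGraph Λ V)

/-- Normal forms. The head of the list is the letter applied last. -/
def NormalForm : List (Λ × Bool) → V → Prop
  | [], _ => True
  | [t], v => A.step t v = none
  | t :: s :: u, v => s ≠ flipL t ∧ NormalForm (s :: u) v

theorem NormalForm.tail : ∀ {t : Λ × Bool} {u : List (Λ × Bool)} {v : V},
    NormalForm A (t :: u) v → NormalForm A u v
  | _, [], _, _ => trivial
  | _, _ :: _, _, h => h.2

/-- One step of the completed action, on raw pairs. -/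
def actRaw (t : Λ × Bool) : List (Λ × Bool) × V → List (Λ × Bool) × V
  | ([], v) => match A.step t v with
    | some v' => ([], v')
    | none => ([t], v)
  | (s :: u, v) => if s = flipL t then (u, v) else (t :: s :: u, v)

theorem normalForm_actRaw (t : Λ × Bool) (p : List (Λ × Bool) × V)
    (h : NormalForm A p.1 p.2) : NormalForm A (actRaw A t p).1 (actRaw A t p).2 := by
  obtain ⟨u, v⟩ := p
  cases u with
  | nil =>
    cases hs : A.step t v with
    | none => simp [actRaw, hs, NormalForm]
    | some v' => simp [actRaw, hs, NormalForm]
  | cons s u =>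
    by_cases hst : s = flipL t
    · simpa [actRaw, hst] using h.tail A
    · simp only [actRaw, if_neg hst]
      exact ⟨hst, h⟩

theorem actRaw_flip (t : Λ × Bool) (p : List (Λ × Bool) × V)
    (h : NormalForm A p.1 p.2) : actRaw A (flipL t) (actRaw A t p) = p := by
  obtain ⟨u, v⟩ := p
  cases u with
  | nil =>
    cases hs : A.step t v with
    | none => simp [actRaw, hs]
    | some v' => simp [actRaw, hs, A.rev t v v' hs]
  | cons s u =>
    by_cases hst : s = flipL t
    · subst hst
      simp only [actRaw, if_true]
      cases u with
      | nil =>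
        have h' : A.step (flipL t) v = none := h
        simp [h']
      | cons s' u =>
        have h' := h.1
        rw [flipL_flipL] at h'
        simp [h']
    · simp [actRaw, if_neg hst]

/-- The completed space. -/
def Compl : Type := {p : List (Λ × Bool) × V // NormalForm A p.1 p.2}

/-- The permutation of the completed space given by a signed letter. -/
def actPerm (t : Λ × Bool) : Equiv.Perm (Compl A) where
  toFun p := ⟨actRaw A t p.1, normalForm_actRaw A t p.1 p.2⟩
  invFun p := ⟨actRaw A (flipL t) p.1, normalForm_actRaw A (flipL t) p.1 p.2⟩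
  left_inv p := Subtype.ext (actRaw_flip A t p.1 p.2)
  right_inv p := Subtype.ext (by simpa using actRaw_flip A (flipL t) p.1 p.2)

/-- The free group acting on the completed space. -/
def complHom : FreeGroup Λ →* Equiv.Perm (Compl A) :=
  FreeGroup.lift fun a => actPerm A (a, true)

/-- The free group element of a signed letter. -/
def letterF (t : Λ × Bool) : FreeGroup Λ := FreeGroup.mk [t]

theorem letterF_flip (t : Λ × Bool) : letterF (flipL t) = (letterF t)⁻¹ := by
  simp [letterF, flipL, FreeGroup.inv_mk, FreeGroup.invRev]

theorem complHom_letter (t : Λ × Bool) : complHom A (letterF t) = actPerm A t := by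
  obtain ⟨a, b⟩ := t
  cases b
  · have h : (actPerm A (a, true))⁻¹ = actPerm A (a, false) := by
      ext p; rfl
    simp [complHom, letterF, h]
  · simp [complHom, letterF]

/-- A vertex as a point of the completed space. -/
def coreC (v : V) : Compl A := ⟨([], v), trivial⟩

/-- The base vertex of a point of the completed space. -/
def baseC (p : Compl A) : V := p.1.2

theorem act_core {t : Λ × Bool} {v v' : V} (h : A.step t v = some v') :
    complHom A (letterF t) (coreC A v) = coreC A v' := by
  rw [complHom_letter]
  exact Subtype.ext (show actRaw A t ([], v) = ([], v') by simp [actRaw, h])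

theorem baseC_act_mem {S : Set V} (hS : ∀ t v v', A.step t v = some v' → v ∈ S → v' ∈ S)
    (w : FreeGroup Λ) : ∀ p : Compl A, baseC A p ∈ S → baseC A (complHom A w p) ∈ S := by
  have key : ∀ (t : Λ × Bool) (p : Compl A), baseC A p ∈ S → baseC A (actPerm A t p) ∈ S := by
    rintro t ⟨⟨u, v⟩, hp⟩ h
    show (actRaw A t (u, v)).2 ∈ S
    cases u with
    | nil =>
      cases hs : A.step t v with
      | none => simp [actRaw, hs]; exact h
      | some v' => simp [actRaw, hs]; exact hS t v v' hs h
    | cons s u =>
      by_cases hst : s = flipL t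
      · simp [actRaw, hst]; exact h
      · simp [actRaw, if_neg hst]; exact h
  induction w using FreeGroup.induction_on with
  | C1 => intro p h; simpa using h
  | of a =>
    intro p h
    rw [show FreeGroup.of a = letterF (a, true) from rfl, complHom_letter]
    exact key _ _ h
  | inv_of a _ =>
    intro p h
    rw [show FreeGroup.of a = letterF (a, true) from rfl, ← letterF_flip, complHom_letter]
    exact key _ _ h
  | mul x y hx hy => intro p h; rw [map_mul, Equiv.Perm.mul_apply]; exact hx _ (hy _ h)

/-- A walk with reduced labels that stays in a finite set eventually runs inside the graph. -/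
theorem exists_core_of_finite (t : ℕ → Λ × Bool) (ht : ∀ j, t (j + 1) ≠ flipL (t j))
    (τ : ℕ → Compl A) (hτ : ∀ j, τ (j + 1) = complHom A (letterF (t j)) (τ j))
    (hfin : (Set.range τ).Finite) :
    ∃ J, ∀ j, J ≤ j → ∃ v v', (τ j).1 = ([], v) ∧ A.step (t j) v = some v' ∧
      (τ (j + 1)).1 = ([], v') := by
  set len : ℕ → ℕ := fun j => (τ j).1.1.length with hlen
  have hraw : ∀ j, (τ (j + 1)).1 = actRaw A (t j) (τ j).1 := by
    intro j; rw [hτ j, complHom_letter]; rfl
  have hout : ∀ j, (τ (j + 1)).1.1.head? = some (t j) → len j < len (j + 1) →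
      (τ (j + 2)).1.1.head? = some (t (j + 1)) ∧ len (j + 1) < len (j + 2) := by
    intro j hh _
    rcases hu : (τ (j + 1)).1.1 with _ | ⟨s, u'⟩
    · simp [hu] at hh
    · have hs : s = t j := by simpa [hu] using hh
      have hne : s ≠ flipL (t (j + 1)) := by
        rintro rfl
        exact ht j (by rw [← hs, flipL_flipL])
      have h2 : (τ (j + 2)).1 = (t (j + 1) :: s :: u', (τ (j + 1)).1.2) := by
        rw [show j + 2 = (j + 1) + 1 from rfl, hraw (j + 1)]
        rw [show (τ (j + 1)).1 = (s :: u', (τ (j + 1)).1.2) from Prod.ext hu rfl]
        simp [actRaw, if_neg hne]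
      simp [hlen, h2, hu]
  have hnoout : ∀ j, ¬ ((τ (j + 1)).1.1.head? = some (t j) ∧ len j < len (j + 1)) := by
    intro j hj
    have hall : ∀ i, (τ (j + i + 1)).1.1.head? = some (t (j + i)) ∧
        len (j + i) < len (j + i + 1) := by
      intro i
      induction i with
      | zero => exact hj
      | succ i ih => exact hout (j + i) ih.1 ih.2
    have hmono : ∀ i, i ≤ len (j + i) := by
      intro i
      induction i with
      | zero => exact Nat.zero_le _
      | succ i ih => have := (hall i).2; rw [← Nat.add_assoc]; omega
    obtain ⟨B, hB⟩ := (hfin.image fun p : Compl A => p.1.1.length).bddAbove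
    have h1 := hmono (B + 1)
    have h2 : len (j + (B + 1)) ≤ B := hB ⟨τ (j + (B + 1)), ⟨_, rfl⟩, rfl⟩
    omega
  have hstep : ∀ j, (∃ v v', (τ j).1 = ([], v) ∧ A.step (t j) v = some v' ∧
      (τ (j + 1)).1 = ([], v')) ∨ (0 < len j ∧ len (j + 1) + 1 = len j) := by
    intro j
    rcases hu : (τ j).1 with ⟨u, v⟩
    cases u with
    | nil =>
      cases hs : A.step (t j) v with
      | none =>
        refine absurd ?_ (hnoout j)
        simp [hlen, hraw j, hu, actRaw, hs]
      | some v' => exact Or.inl ⟨v, v', rfl, hs, by rw [hraw j, hu]; simp [actRaw, hs]⟩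
    | cons s u =>
      by_cases hst : s = flipL (t j)
      · exact Or.inr ⟨by simp [hlen, hu], by simp [hlen, hraw j, hu, actRaw, hst]⟩
      · refine absurd ?_ (hnoout j)
        simp [hlen, hraw j, hu, actRaw, if_neg hst]
  have hdec : ∀ j, len j ≤ len 0 - j := by
    intro j
    induction j with
    | zero => simp
    | succ j ih =>
      rcases hstep j with ⟨v, v', _, _, h⟩ | ⟨_, h⟩
      · simp [hlen, h]
      · omega
  refine ⟨len 0, fun j hj => ?_⟩
  rcases hstep j with h | ⟨h, _⟩
  · exact h
  · have := hdec j; omega

end Vale.Agent.P090
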