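import Mathlib

/-!
An isoperimetric inequality for graphs of degree four without finite subgraphs of minimal
degree two.
-/

noncomputable section

open Classical Finset

namespace Vale.Agent.P090

variable {Z : Type*} (nb : Z → Fin 4 → Z)

/-- The number of edges at `z` that stay in `A`. -/
def innerDeg (A : Finset Z) (z : Z) : ℕ :=
  (Finset.univ.filter fun i : Fin 4 => nb z i ∈ A).card

/-- The number of edges at `z` that leave `A`. -/
def outerDeg (A : Finset Z) (z : Z) : ℕ :=
  (Finset.univ.filter fun i : Fin 4 => nb z i ∉ A).card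

theorem two_mul_card_le_outer (rev : Z → Fin 4 → Fin 4)
    (hrev : ∀ z i, nb (nb z i) (rev z i) = z)
    (hrevinj : ∀ z i i', nb z i = nb z i' → rev z i = rev z i' → i = i')
    (A₀ : Finset Z)
    (hleaf : ∀ A : Finset Z, A ⊆ A₀ → A.Nonempty → ∃ z ∈ A, innerDeg nb A z ≤ 1) :
    ∀ A : Finset Z, A ⊆ A₀ → 2 * A.card ≤ ∑ z ∈ A, outerDeg nb A z := by
  intro A
  induction A using Finset.strongInduction with
  | H A ih =>
    intro hA₀
    rcases A.eq_empty_or_nonempty with rfl | hA
    · simp
    obtain ⟨z, hz, hdeg⟩ := hleaf A hA₀ hA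
    have ih' := ih (A.erase z) (Finset.erase_ssubset hz) ((Finset.erase_subset _ _).trans hA₀)
    rw [← Finset.add_sum_erase A _ hz, ← Finset.card_erase_add_one hz]
    have hsum : innerDeg nb A z + outerDeg nb A z = 4 := by
      simpa [innerDeg, outerDeg] using
        Finset.card_filter_add_card_filter_not (s := (Finset.univ : Finset (Fin 4)))
          (fun i => nb z i ∈ A)
    have hsplit : ∀ y, outerDeg nb (A.erase z) y =
        outerDeg nb A y + (Finset.univ.filter fun i : Fin 4 => nb y i = z).card := by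
      intro y
      rw [outerDeg, outerDeg, ← Finset.card_union_of_disjoint]
      · congr 1
        ext i
        simp only [mem_filter, mem_univ, true_and, mem_erase, mem_union]
        by_cases h : nb y i = z <;> simp [h]
      · rw [Finset.disjoint_filter]
        intro i _ h h'
        exact h (h' ▸ hz)
    have hinto : ∑ y ∈ A.erase z, (Finset.univ.filter fun i : Fin 4 => nb y i = z).card
        ≤ innerDeg nb A z := by
      rw [← Finset.card_sigma]
      refine Finset.card_le_card_of_injOn (fun q => rev q.1 q.2) ?_ ?_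
      · rintro ⟨y, i⟩ hq
        simp only [coe_sigma, Set.mem_sigma_iff, mem_coe, mem_filter, mem_univ, true_and,
          mem_erase] at hq
        have := hrev y i
        rw [hq.2] at this
        simp [this, hq.1.2]
      · rintro ⟨y, i⟩ hq ⟨y', i'⟩ hq' heq
        simp only [coe_sigma, Set.mem_sigma_iff, mem_coe, mem_filter, mem_univ, true_and]
          at hq hq'
        have h1 := hrev y i
        have h2 := hrev y' i'
        rw [hq.2] at h1; rw [hq'.2] at h2
        simp only at heq
        rw [heq] at h1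
        have hy : y = y' := h1.symm.trans h2
        subst hy
        have hi := hrevinj y i i' (hq.2.trans hq'.2.symm) heq
        subst hi; rfl
    rw [Finset.sum_congr rfl fun y _ => hsplit y, Finset.sum_add_distrib] at ih'
    omega

theorem two_mul_sum_le_grad
    (A₀ : Finset Z)
    (hout : ∀ A : Finset Z, A ⊆ A₀ → 2 * A.card ≤ ∑ z ∈ A, outerDeg nb A z) :
    ∀ (A : Finset Z), A ⊆ A₀ → ∀ (F : Z → ℝ), (∀ z, 0 ≤ F z) → (∀ z, z ∉ A → F z = 0) →
      2 * ∑ z ∈ A, F z ≤ ∑ z ∈ A, ∑ i, max 0 (F z - F (nb z i)) := by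
  intro A
  induction A using Finset.strongInduction with
  | H A ih =>
    intro hA₀ F hF hsupp
    have hdrop : ∀ (G : Z → ℝ), (∀ z, 0 ≤ G z) → (∀ z, z ∉ A → G z = 0) →
        (∃ z ∈ A, G z = 0) →
        2 * ∑ z ∈ A, G z ≤ ∑ z ∈ A, ∑ i, max 0 (G z - G (nb z i)) := by
      rintro G hG hGs ⟨z, hz, hz0⟩
      have h := ih (A.erase z) (Finset.erase_ssubset hz) ((Finset.erase_subset _ _).trans hA₀)
        G hG (fun y hy => by
        by_cases hyz : y = z
        · rw [hyz, hz0]
        · exact hGs y fun hyA => hy (Finset.mem_erase.2 ⟨hyz, hyA⟩))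
      rw [← Finset.add_sum_erase A _ hz, hz0, zero_add, ← Finset.add_sum_erase A _ hz]
      have : (0 : ℝ) ≤ ∑ i, max 0 (0 - G (nb z i)) :=
        Finset.sum_nonneg fun i _ => le_max_left _ _
      rw [hz0]
      linarith
    rcases A.eq_empty_or_nonempty with rfl | hA
    · simp
    obtain ⟨z₀, hz₀, hmin⟩ := A.exists_min_image F hA
    set m := F z₀
    set G : Z → ℝ := fun z => if z ∈ A then F z - m else 0 with hG
    have hGnn : ∀ z, 0 ≤ G z := fun z => by
      by_cases hz : z ∈ A
      · simp [hG, hz, hmin z hz]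
      · simp [hG, hz]
    have h := hdrop G hGnn (fun z hz => by simp [hG, hz]) ⟨z₀, hz₀, by simp [hG, hz₀, m]⟩
    have hterm : ∀ z ∈ A, (∑ i, max 0 (F z - F (nb z i))) =
        (∑ i, max 0 (G z - G (nb z i))) + (outerDeg nb A z : ℝ) * m := by
      intro z hz
      rw [outerDeg, Finset.card_filter, Nat.cast_sum, Finset.sum_mul, ← Finset.sum_add_distrib]
      refine Finset.sum_congr rfl fun i _ => ?_
      by_cases hn : nb z i ∈ A
      · simp [hG, hz, hn]
      · have := hmin z hz
        have := hF z₀
        simp [hG, hz, hn, hsupp _ hn]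
        rw [max_eq_right (by linarith), max_eq_right (by linarith)]
        ring
    have hsum : ∑ z ∈ A, G z = ∑ z ∈ A, F z - (A.card : ℝ) * m := by
      rw [Finset.sum_congr rfl (g := fun z => F z - m) (fun z hz => by simp [hG, hz]),
        Finset.sum_sub_distrib, Finset.sum_const, nsmul_eq_mul]
    rw [Finset.sum_congr rfl hterm, Finset.sum_add_distrib, ← Finset.sum_mul]
    have hc : (2 : ℝ) * A.card ≤ ∑ z ∈ A, (outerDeg nb A z : ℝ) := by exact_mod_cast hout A hA₀
    have := mul_le_mul_of_nonneg_right hc (hF z₀)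
    rw [hsum] at h
    change (2:ℝ) * A.card * m ≤ _ at this
    linarith

end Vale.Agent.P090
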