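import Mathlib

/-!
Lipschitz-free spaces and the bounded approximation property, as in the problem P090.
-/

noncomputable section

namespace Vale.Agent.P090

universe u

variable {M : Type u} [MetricSpace M]

/-- Real Lipschitz functions vanishing at the base point. -/
def lipZeroSubmodule (o : M) : Submodule ℝ (M → ℝ) where
  carrier := {f | f o = 0 ∧ ∃ K : ℝ, ∀ x y, |f x - f y| ≤ K * dist x y}
  add_mem' := by
    rintro f g ⟨hf, Kf, hKf⟩ ⟨hg, Kg, hKg⟩
    refine ⟨by simp [hf, hg], Kf + Kg, fun x y => ?_⟩
    simp only [Pi.add_apply]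
    have h1 := abs_add_le (f x - f y) (g x - g y)
    have h2 := hKf x y
    have h3 := hKg x y
    have h4 : f x + g x - (f y + g y) = (f x - f y) + (g x - g y) := by ring
    rw [h4]; nlinarith
  zero_mem' := ⟨rfl, 0, by simp⟩
  smul_mem' := by
    rintro c f ⟨hf, Kf, hKf⟩
    refine ⟨by simp [hf], |c| * Kf, fun x y => ?_⟩
    simp only [Pi.smul_apply, smul_eq_mul]
    rw [← mul_sub, abs_mul, mul_assoc]
    exact mul_le_mul_of_nonneg_left (hKf x y) (abs_nonneg c)

/-- The space of Lipschitz functions vanishing at `o`. -/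
def LipZero (o : M) : Type u := ↥(lipZeroSubmodule o)

variable {o : M}

instance : AddCommGroup (LipZero o) := inferInstanceAs (AddCommGroup ↥(lipZeroSubmodule o))
instance : Module ℝ (LipZero o) := inferInstanceAs (Module ℝ ↥(lipZeroSubmodule o))

/-- The function underlying an element of `LipZero o`. -/
def LipZero.fn (f : LipZero o) : M → ℝ := f.1

@[simp] theorem LipZero.fn_add (f g : LipZero o) : (f + g).fn = f.fn + g.fn := rfl
@[simp] theorem LipZero.fn_zero : (0 : LipZero o).fn = 0 := rfl
@[simp] theorem LipZero.fn_neg (f : LipZero o) : (-f).fn = -f.fn := rfl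
@[simp] theorem LipZero.fn_smul (c : ℝ) (f : LipZero o) : (c • f).fn = c • f.fn := rfl
theorem LipZero.fn_base (f : LipZero o) : f.fn o = 0 := f.2.1

/-- The Lipschitz constant of a function. -/
def lipConst (f : LipZero o) : ℝ := ⨆ p : M × M, |f.fn p.1 - f.fn p.2| / dist p.1 p.2

theorem lipConst_bdd (f : LipZero o) :
    BddAbove (Set.range fun p : M × M => |f.fn p.1 - f.fn p.2| / dist p.1 p.2) := by
  obtain ⟨K, hK⟩ := f.2.2
  refine ⟨max K 0, ?_⟩
  rintro _ ⟨⟨x, y⟩, rfl⟩
  exact div_le_of_le_mul₀ dist_nonneg (le_max_right _ _)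
    ((hK x y).trans (mul_le_mul_of_nonneg_right (le_max_left _ _) dist_nonneg))

theorem lipConst_nonneg (f : LipZero o) : 0 ≤ lipConst f :=
  Real.iSup_nonneg fun _ => div_nonneg (abs_nonneg _) dist_nonneg

theorem abs_sub_le_lipConst (f : LipZero o) (x y : M) :
    |f.fn x - f.fn y| ≤ lipConst f * dist x y := by
  rcases eq_or_ne x y with rfl | h
  · simp
  · exact (div_le_iff₀ (dist_pos.2 h)).1 (le_ciSup (lipConst_bdd f) (x, y))

theorem lipConst_le (f : LipZero o) {K : ℝ} (hK0 : 0 ≤ K)
    (hK : ∀ x y, |f.fn x - f.fn y| ≤ K * dist x y) : lipConst f ≤ K := by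
  have : Nonempty M := ⟨o⟩
  exact ciSup_le fun p => div_le_of_le_mul₀ dist_nonneg hK0 (hK p.1 p.2)

instance : NormedAddCommGroup (LipZero o) :=
  AddGroupNorm.toNormedAddCommGroup
    { toFun := lipConst
      map_zero' := le_antisymm (lipConst_le _ le_rfl (by simp)) (lipConst_nonneg _)
      add_le' := fun f g => by
        refine lipConst_le _ (add_nonneg (lipConst_nonneg f) (lipConst_nonneg g)) fun x y => ?_
        simp only [LipZero.fn_add, Pi.add_apply, add_sub_add_comm, add_mul]
        exact (abs_add_le _ _).trans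
          (add_le_add (abs_sub_le_lipConst f x y) (abs_sub_le_lipConst g x y))
      neg' := fun f => by
        simp only [lipConst, LipZero.fn_neg, Pi.neg_apply, neg_sub_neg]
        congr 1; funext p; rw [abs_sub_comm]
      eq_zero_of_map_eq_zero' := fun f hf => by
        refine Subtype.ext (funext fun x => ?_)
        have h := abs_sub_le_lipConst f x o
        rw [hf, zero_mul, LipZero.fn_base, sub_zero] at h
        exact abs_eq_zero.1 (le_antisymm h (abs_nonneg _)) }

theorem norm_eq_lipConst (f : LipZero o) : ‖f‖ = lipConst f := rfl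

instance : NormedSpace ℝ (LipZero o) where
  norm_smul_le c f := by
    rw [norm_eq_lipConst, norm_eq_lipConst, Real.norm_eq_abs]
    refine lipConst_le _ (mul_nonneg (abs_nonneg c) (lipConst_nonneg f)) fun x y => ?_
    simp only [LipZero.fn_smul, Pi.smul_apply, smul_eq_mul]
    rw [← mul_sub, abs_mul, mul_assoc]
    exact mul_le_mul_of_nonneg_left (abs_sub_le_lipConst f x y) (abs_nonneg c)

/-- Evaluation at a point, as an element of the dual of `LipZero o`. -/
def delta (o : M) (x : M) : StrongDual ℝ (LipZero o) :=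
  LinearMap.mkContinuous
    { toFun := fun f => f.fn x
      map_add' := fun f g => by simp
      map_smul' := fun c f => by simp }
    (dist x o) fun f => by
      show ‖f.fn x‖ ≤ dist x o * ‖f‖
      rw [Real.norm_eq_abs, norm_eq_lipConst, mul_comm]
      simpa [LipZero.fn_base] using abs_sub_le_lipConst f x o

@[simp] theorem delta_apply (o x : M) (f : LipZero o) : delta o x f = f.fn x := rfl

theorem norm_delta_sub_le (o x y : M) : ‖delta o x - delta o y‖ ≤ dist x y :=
  ContinuousLinearMap.opNorm_le_bound _ dist_nonneg fun f => by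
    show ‖f.fn x - f.fn y‖ ≤ dist x y * ‖f‖
    rw [Real.norm_eq_abs, norm_eq_lipConst, mul_comm]
    exact abs_sub_le_lipConst f x y

/-- The Lipschitz-free space: closed linear span of the evaluations. -/
def lipFree (o : M) : Submodule ℝ (StrongDual ℝ (LipZero o)) :=
  (Submodule.span ℝ (Set.range (delta o))).topologicalClosure

/-- The bounded approximation property. -/
def HasBAP (X : Type*) [NormedAddCommGroup X] [NormedSpace ℝ X] : Prop :=
  ∃ lam : ℝ, 1 ≤ lam ∧ ∀ C : Set X, IsCompact C → ∀ ε : ℝ, 0 < ε →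
    ∃ T : X →L[ℝ] X, FiniteDimensional ℝ (LinearMap.range T.toLinearMap) ∧ ‖T‖ ≤ lam ∧
      ∀ u ∈ C, ‖T u - u‖ < ε

theorem delta_mem_lipFree (o x : M) : delta o x ∈ lipFree o :=
  Submodule.le_topologicalClosure _ (Submodule.subset_span ⟨x, rfl⟩)

/-- The point `x` as an element of the Lipschitz-free space. -/
def fdelta (o x : M) : lipFree o := ⟨delta o x, delta_mem_lipFree o x⟩

end Vale.Agent.P090
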