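import Mathlib

/-!
A finite quotient of a free group that is injective on a ball, and the lift with linear cut-off.
-/

noncomputable section

open Classical

namespace Vale.Agent.P090

variable {Λ : Type} [DecidableEq Λ]

/-- A finite quotient of the free group, injective on the ball of radius `n`. -/
theorem exists_finite_quotient (Λ : Type) [DecidableEq Λ] [Finite Λ] (n : ℕ) :
    ∃ (Q : Type) (_ : Group Q) (_ : Finite Q) (q : FreeGroup Λ →* Q),
      Set.InjOn q {w | FreeGroup.norm w ≤ n} := by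
  set S : Set (FreeGroup Λ) := {w | FreeGroup.norm w ≤ n} with hS
  have hfin : S.Finite :=
    ((List.finite_length_le (Λ × Bool) n).image FreeGroup.mk).subset
      fun w (hw : FreeGroup.norm w ≤ n) => ⟨w.toWord, hw, FreeGroup.mk_toWord⟩
  have : Finite S := hfin.to_subtype
  have hσ : ∀ a : Λ, ∃ σ : Equiv.Perm S, ∀ p : S, ∀ h : FreeGroup.of a * p.1 ∈ S,
      σ p = ⟨FreeGroup.of a * p.1, h⟩ := by
    intro a
    obtain ⟨σ, hσ⟩ := Equiv.Perm.exists_extending_pair
      (fun p : {p : S // FreeGroup.of a * p.1 ∈ S} => p.1)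
      (fun p : {p : S // FreeGroup.of a * p.1 ∈ S} => (⟨FreeGroup.of a * p.1.1, p.2⟩ : S))
      Subtype.val_injective (fun p p' h => by
        have := congrArg Subtype.val h
        simp only [mul_right_inj] at this
        exact Subtype.ext (Subtype.ext this))
    exact ⟨σ, fun p h => hσ ⟨p, h⟩⟩
  choose σ hσ using hσ
  refine ⟨Equiv.Perm S, inferInstance, inferInstance, FreeGroup.lift σ, ?_⟩
  have h1 : (1 : FreeGroup Λ) ∈ S := by simp [hS]
  have key : ∀ u : List (Λ × Bool), FreeGroup.IsReduced u → u.length ≤ n →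
      ((FreeGroup.lift σ (FreeGroup.mk u)) ⟨1, h1⟩ : FreeGroup Λ) = FreeGroup.mk u := by
    intro u
    induction u with
    | nil => intro _ _; simp [← FreeGroup.one_eq_mk]
    | cons a u ih =>
      intro hr hl
      have hru : FreeGroup.IsReduced u := List.IsChain.tail hr
      simp only [List.length_cons] at hl
      have hmu : FreeGroup.mk u ∈ S :=
        le_trans FreeGroup.norm_mk_le (by omega)
      have hmau : FreeGroup.mk (a :: u) ∈ S :=
        le_trans FreeGroup.norm_mk_le (by simpa using hl)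
      have heq : (FreeGroup.lift σ (FreeGroup.mk u)) ⟨1, h1⟩ = ⟨_, hmu⟩ :=
        Subtype.ext (ih hru (by omega))
      have hsplit : FreeGroup.mk (a :: u) = FreeGroup.mk [a] * FreeGroup.mk u := by
        simp [FreeGroup.mul_mk]
      rw [hsplit, map_mul, Equiv.Perm.mul_apply, heq]
      obtain ⟨i, b⟩ := a
      cases b
      · have hof : FreeGroup.of i * FreeGroup.mk ((i, false) :: u) = FreeGroup.mk u := by
          rw [hsplit, show FreeGroup.mk [(i, false)] = (FreeGroup.of i)⁻¹ from by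
            simp [FreeGroup.of, FreeGroup.inv_mk, FreeGroup.invRev], mul_inv_cancel_left]
        have h := hσ i ⟨_, hmau⟩ (by simpa only [hof] using hmu)
        have h' : (σ i)⁻¹ ⟨_, hmu⟩ = ⟨_, hmau⟩ := by
          rw [Equiv.Perm.inv_eq_iff_eq, h]
          exact Subtype.ext hof.symm
        rw [← hsplit]
        simp [h']
      · have hof : FreeGroup.of i * FreeGroup.mk u = FreeGroup.mk ((i, true) :: u) := by
          simp [FreeGroup.of, FreeGroup.mul_mk]
        have h := hσ i ⟨_, hmu⟩ (by simpa only [hof] using hmau)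
        rw [← hsplit]
        simp [h, hof]
  intro w hw w' hw' h
  have e1 := key w.toWord FreeGroup.isReduced_toWord hw
  have e2 := key w'.toWord FreeGroup.isReduced_toWord hw'
  rw [FreeGroup.mk_toWord] at e1 e2
  rw [← e1, ← e2, h]

/-- The linear cut-off of radius `R`. -/
def cut (R : ℕ) (w : FreeGroup Λ) : ℝ := max 0 (1 - (FreeGroup.norm w : ℝ) / R)

theorem abs_cut_le_one (R : ℕ) (w : FreeGroup Λ) : |cut R w| ≤ 1 := by
  have : (0 : ℝ) ≤ (FreeGroup.norm w : ℝ) / R := by positivity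
  rw [abs_le]; unfold cut
  exact ⟨by linarith [le_max_left (0 : ℝ) (1 - (FreeGroup.norm w : ℝ) / R)],
    max_le zero_le_one (by linarith)⟩

theorem cut_eq_zero {R : ℕ} (hR : 0 < R) {w : FreeGroup Λ} (h : R ≤ FreeGroup.norm w) :
    cut R w = 0 := by
  refine max_eq_left ?_
  rw [sub_nonpos, one_le_div (by exact_mod_cast hR)]
  exact_mod_cast h

theorem abs_cut_sub_le (R : ℕ) {w w' : FreeGroup Λ} (h : FreeGroup.norm w ≤ FreeGroup.norm w' + 1)
    (h' : FreeGroup.norm w' ≤ FreeGroup.norm w + 1) : |cut R w - cut R w'| ≤ 1 / R := by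
  refine (abs_max_sub_max_le_max _ _ _ _).trans ?_
  rw [sub_self, abs_zero, sub_sub_sub_cancel_left, ← sub_div, abs_div, Nat.abs_cast]
  refine max_le (by positivity) (div_le_div_of_nonneg_right ?_ (by positivity))
  have a : (FreeGroup.norm w : ℝ) ≤ FreeGroup.norm w' + 1 := by exact_mod_cast h
  have b : (FreeGroup.norm w' : ℝ) ≤ FreeGroup.norm w + 1 := by exact_mod_cast h'
  rw [abs_le]; constructor <;> linarith

variable {Q : Type} [Group Q] (q : FreeGroup Λ →* Q) (R : ℕ)

/-- The short lift of an element of the quotient. -/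
def lft (h : Q) : FreeGroup Λ :=
  if e : ∃ w, FreeGroup.norm w ≤ R ∧ q w = h then e.choose else 1

/-- The cut-off coefficient of an element of the quotient. -/
def cof (h : Q) : ℝ :=
  if ∃ w, FreeGroup.norm w ≤ R ∧ q w = h then cut R (lft q R h) else 0

theorem abs_cof_le_one (h : Q) : |cof q R h| ≤ 1 := by
  unfold cof; split
  · exact abs_cut_le_one _ _
  · simp

variable {q R}

section
variable (hq : Set.InjOn q {w | FreeGroup.norm w ≤ R + 1})
include hq

theorem lft_eq {w : FreeGroup Λ} (hw : FreeGroup.norm w ≤ R) : lft q R (q w) = w := by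
  have e : ∃ w', FreeGroup.norm w' ≤ R ∧ q w' = q w := ⟨w, hw, rfl⟩
  simp only [lft, dif_pos e]
  exact hq (Nat.le_succ_of_le e.choose_spec.1) (Nat.le_succ_of_le hw) e.choose_spec.2

theorem cof_eq (hR : 0 < R) {w : FreeGroup Λ} (hw : FreeGroup.norm w ≤ R + 1) :
    cof q R (q w) = cut R w := by
  by_cases hw' : FreeGroup.norm w ≤ R
  · have e : ∃ w', FreeGroup.norm w' ≤ R ∧ q w' = q w := ⟨w, hw', rfl⟩
    rw [cof, if_pos e, lft_eq hq hw']
  · rw [cof, if_neg, cut_eq_zero hR (by omega)]
    rintro ⟨w', h1, h2⟩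
    exact hw' (hq (Nat.le_succ_of_le h1) hw h2 ▸ h1)

theorem cof_one (hR : 0 < R) : cof q R 1 = 1 := by
  rw [← map_one q, cof_eq hq hR (by simp)]
  simp [cut]

theorem exists_of_cof_ne_zero (hR : 0 < R) {h : Q} (hh : cof q R h ≠ 0) :
    ∃ w, FreeGroup.norm w < R ∧ q w = h := by
  by_cases e : ∃ w', FreeGroup.norm w' ≤ R ∧ q w' = h
  · obtain ⟨w, h1, rfl⟩ := e
    refine ⟨w, lt_of_le_of_ne h1 fun he => hh ?_, rfl⟩
    rw [cof_eq hq hR (Nat.le_succ_of_le h1), cut_eq_zero hR he.ge]
  · exact absurd (by rw [cof, if_neg e]) hh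

/-- Moving by one step changes the coefficient by at most `1/R` and moves the lift along. -/
theorem cof_move (hR : 0 < R) (e : FreeGroup Λ ≃ FreeGroup Λ) (E : Q ≃ Q)
    (hE : ∀ w, q (e w) = E (q w))
    (h1 : ∀ w, FreeGroup.norm (e w) ≤ FreeGroup.norm w + 1)
    (h2 : ∀ w, FreeGroup.norm w ≤ FreeGroup.norm (e w) + 1) (h : Q) :
    |cof q R (E h) - cof q R h| ≤ 1 / R ∧
      ((cof q R h ≠ 0 ∨ cof q R (E h) ≠ 0) → lft q R (E h) = e (lft q R h)) := by
  by_cases hz : cof q R h ≠ 0
  · obtain ⟨w, hw, rfl⟩ := exists_of_cof_ne_zero hq hR hz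
    have := h1 w
    rw [← hE]
    refine ⟨?_, fun _ => ?_⟩
    · rw [cof_eq hq hR (by omega), cof_eq hq hR (by omega)]
      exact abs_cut_sub_le R (h1 w) (h2 w)
    · rw [lft_eq hq (by omega), lft_eq hq hw.le]
  · by_cases hz' : cof q R (E h) ≠ 0
    · obtain ⟨w', hw', hqw⟩ := exists_of_cof_ne_zero hq hR hz'
      obtain ⟨w, rfl⟩ := e.surjective w'
      have hh : q w = h := E.injective (by rw [← hE, hqw])
      subst hh
      have := h2 w
      rw [← hE]
      refine ⟨?_, fun _ => ?_⟩
      · rw [cof_eq hq hR (by omega), cof_eq hq hR (by omega)]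
        exact abs_cut_sub_le R (h1 w) (h2 w)
      · rw [lft_eq hq hw'.le, lft_eq hq (by omega)]
    · push Not at hz hz'
      refine ⟨by simp [hz, hz'], fun h => absurd h (by simp [hz, hz'])⟩

theorem cof_mul_left (hR : 0 < R) {t : FreeGroup Λ} (ht : FreeGroup.norm t ≤ 1) (h : Q) :
    |cof q R (q t * h) - cof q R h| ≤ 1 / R ∧
      ((cof q R h ≠ 0 ∨ cof q R (q t * h) ≠ 0) → lft q R (q t * h) = t * lft q R h) := by
  refine cof_move hq hR (Equiv.mulLeft t) (Equiv.mulLeft (q t)) (fun w => by simp) ?_ ?_ h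
  · intro w; have := FreeGroup.norm_mul_le t w; simp; omega
  · intro w
    have := FreeGroup.norm_mul_le t⁻¹ (t * w)
    simp [inv_mul_cancel_left, FreeGroup.norm_inv_eq] at this ⊢
    omega

theorem cof_mul_right (hR : 0 < R) {t : FreeGroup Λ} (ht : FreeGroup.norm t ≤ 1) (h : Q) :
    |cof q R (h * q t) - cof q R h| ≤ 1 / R ∧
      ((cof q R h ≠ 0 ∨ cof q R (h * q t) ≠ 0) → lft q R (h * q t) = lft q R h * t) := by
  refine cof_move hq hR (Equiv.mulRight t) (Equiv.mulRight (q t)) (fun w => by simp) ?_ ?_ h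
  · intro w; have := FreeGroup.norm_mul_le w t; simp; omega
  · intro w
    have := FreeGroup.norm_mul_le (w * t) t⁻¹
    simp [mul_inv_cancel_right, FreeGroup.norm_inv_eq] at this ⊢
    omega

end

end Vale.Agent.P090
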