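import Mathlib
import Vale.Agent.P090.Completion

/-!
Labelled high-girth Cayley graphs with label sequences that no earlier one can follow.
-/

noncomputable section

open Classical

namespace Vale.Agent.P090

/-- Signed generators of the free group on two letters. -/
abbrev Gen : Type := Fin 2 × Bool

/-- Number of tags. -/
def numTags : ℕ := 81 * 81 * 8 + 1

/-- The modulus for girth parameter `g`. -/
def modulus (g : ℕ) : ℕ := 3 ^ g + 2

instance (g : ℕ) : NeZero (modulus g) := ⟨by simp [modulus]⟩

/-- The finite group for girth parameter `g`. -/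
abbrev SG (g : ℕ) : Type := (Matrix (Fin 2) (Fin 2) (ZMod (modulus g)))ˣ

/-- Integer matrices of the signed generators. -/
def genMat (t : Gen) : Matrix (Fin 2) (Fin 2) ℤ :=
  if t.1 = 0 then !![1, (if t.2 then 2 else -2); 0, 1]
  else !![1, 0; (if t.2 then 2 else -2), 1]

theorem genMat_mul_flip (t : Gen) : genMat t * genMat (flipL t) = 1 := by
  obtain ⟨i, b⟩ := t
  fin_cases i <;> cases b <;> simp [genMat, flipL, Matrix.one_fin_two]

/-- The signed generators in the finite group. -/
def genU (g : ℕ) (t : Gen) : SG g where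
  val := (Int.castRingHom (ZMod (modulus g))).mapMatrix (genMat t)
  inv := (Int.castRingHom (ZMod (modulus g))).mapMatrix (genMat (flipL t))
  val_inv := by rw [← map_mul, genMat_mul_flip, map_one]
  inv_val := by
    have h := genMat_mul_flip (flipL t)
    rw [flipL_flipL] at h
    rw [← map_mul, h, map_one]

theorem genU_flip (g : ℕ) (t : Gen) : genU g (flipL t) = (genU g t)⁻¹ := Units.ext rfl

/-- The position after `j` steps of a walk starting at `x`. -/
def pos {g : ℕ} (w : ℕ → Gen) (x : SG g) : ℕ → SG g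
  | 0 => x
  | j + 1 => genU g (w j) * pos w x j

theorem pos_eq {g : ℕ} (w : ℕ → Gen) (x : SG g) : ∀ j, pos w x j = pos w 1 j * x
  | 0 => by simp [pos]
  | j + 1 => by simp only [pos]; rw [pos_eq w x j, mul_assoc]

theorem pos_add {g : ℕ} (w : ℕ → Gen) (x : SG g) (i : ℕ) :
    ∀ j, pos w x (i + j) = pos (fun k => w (i + k)) (pos w x i) j
  | 0 => rfl
  | j + 1 => by
    show genU g (w (i + j)) * pos w x (i + j) = _
    rw [pos_add w x i j]
    rfl

/-- A generator acting on an integer vector. -/
def stepVec (t : Gen) (v : ℤ × ℤ) : ℤ × ℤ :=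
  if t.1 = 0 then (v.1 + (if t.2 then 2 else -2) * v.2, v.2)
  else (v.1, v.2 + (if t.2 then 2 else -2) * v.1)

/-- Iterated action on an integer vector. -/
def runVec (w : ℕ → Gen) (v : ℤ × ℤ) : ℕ → ℤ × ℤ
  | 0 => v
  | j + 1 => stepVec (w j) (runVec w v j)

/-- The ping-pong invariant. -/
def Big (t : Gen) (v : ℤ × ℤ) : Prop :=
  (if t.1 = 0 then |v.2| < |v.1| else |v.1| < |v.2|) ∧
    0 < (if t.2 then 1 else -1) * (v.1 * v.2)

theorem big_step {t t' : Gen} {v : ℤ × ℤ} (hne : t' ≠ flipL t) (h : Big t v) :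
    Big t' (stepVec t' v) := by
  obtain ⟨i, b⟩ := t
  obtain ⟨i', b'⟩ := t'
  obtain ⟨x, y⟩ := v
  fin_cases i <;> fin_cases i' <;> cases b <;> cases b' <;>
    simp_all [Big, stepVec, flipL] <;>
    (rcases abs_cases x with ⟨hx, hx'⟩ | ⟨hx, hx'⟩ <;>
      rcases abs_cases y with ⟨hy, hy'⟩ | ⟨hy, hy'⟩ <;>
      (try rw [hx, hy] at h) <;>
      (refine ⟨?_, by nlinarith⟩; rw [lt_abs]; first
        | (left; rw [abs_lt]; constructor <;> nlinarith)
        | (right; rw [abs_lt]; constructor <;> nlinarith)))

theorem runVec_big (w : ℕ → Gen) (hw : ∀ j, w (j + 1) ≠ flipL (w j)) :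
    ∀ j, Big (w j) (runVec w (if (w 0).1 = 0 then (0, 1) else (1, 0)) (j + 1))
  | 0 => by
    simp only [runVec]
    rcases w 0 with ⟨i, b⟩
    fin_cases i <;> cases b <;> simp [Big, stepVec]
  | j + 1 => big_step (hw j) (runVec_big w hw j)

theorem runVec_bound (w : ℕ → Gen) (v : ℤ × ℤ) :
    ∀ j, |(runVec w v j).1| + |(runVec w v j).2| ≤ 3 ^ j * (|v.1| + |v.2|)
  | 0 => by simp [runVec]
  | j + 1 => by
    have ih := runVec_bound w v j
    simp only [runVec, pow_succ]
    generalize runVec w v j = u at ih ⊢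
    have a1 := abs_nonneg u.1
    have a2 := abs_nonneg u.2
    rcases w j with ⟨i, b⟩
    have h1 := abs_add_le u.1 (2 * u.2)
    have h2 := abs_add_le u.2 (2 * u.1)
    have h3 := abs_add_le u.1 (-2 * u.2)
    have h4 := abs_add_le u.2 (-2 * u.1)
    simp only [abs_mul, abs_neg, abs_two] at h1 h2 h3 h4
    fin_cases i <;> cases b <;> simp [stepVec] at ih h1 h2 h3 h4 ⊢ <;>
      nlinarith [abs_nonneg u.1, abs_nonneg u.2]

theorem genU_mulVec (g : ℕ) (t : Gen) (v : ℤ × ℤ) :
    (genU g t).val.mulVec ![(v.1 : ZMod (modulus g)), (v.2 : ZMod (modulus g))]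
      = ![((stepVec t v).1 : ZMod (modulus g)), ((stepVec t v).2 : ZMod (modulus g))] := by
  obtain ⟨i, b⟩ := t
  fin_cases i <;> cases b <;> funext c <;> fin_cases c <;>
    simp [genU, genMat, stepVec, Matrix.mulVec, dotProduct, Fin.sum_univ_two] <;> ring

theorem pos_mulVec {g : ℕ} (w : ℕ → Gen) (v : ℤ × ℤ) : ∀ j,
    (pos (g := g) w 1 j).val.mulVec ![(v.1 : ZMod (modulus g)), (v.2 : ZMod (modulus g))]
      = ![((runVec w v j).1 : ZMod (modulus g)), ((runVec w v j).2 : ZMod (modulus g))]
  | 0 => by simp [pos, runVec]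
  | j + 1 => by
    simp only [pos, runVec, Units.val_mul, ← Matrix.mulVec_mulVec, pos_mulVec w v j]
    exact genU_mulVec g (w j) _

theorem pos_ne_one {g : ℕ} (w : ℕ → Gen) (hw : ∀ j, w (j + 1) ≠ flipL (w j)) {l : ℕ}
    (hl : l + 1 ≤ g) : pos (g := g) w 1 (l + 1) ≠ 1 := by
  intro h
  set v : ℤ × ℤ := if (w 0).1 = 0 then (0, 1) else (1, 0) with hv
  have hv1 : |v.1| + |v.2| = 1 := by rw [hv]; split <;> simp
  have hbig := runVec_big w hw l
  rw [← hv] at hbig
  have hb := runVec_bound w v (l + 1)
  rw [hv1, mul_one] at hb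
  have hm := pos_mulVec (g := g) w v (l + 1)
  rw [h, Units.val_one, Matrix.one_mulVec] at hm
  set u := runVec w v (l + 1)
  have h3 : (3 : ℤ) ^ (l + 1) ≤ 3 ^ g := pow_le_pow_right₀ (by norm_num) hl
  have key : ∀ a b : ℤ, (a : ZMod (modulus g)) = b → |a| ≤ 1 → |b| ≤ 3 ^ g → a = b := by
    intro a b hab ha hb
    rw [ZMod.intCast_eq_intCast_iff_dvd_sub] at hab
    have hlt : |b - a| < (modulus g : ℤ) := by
      have := abs_sub b a
      simp only [modulus, Nat.cast_add, Nat.cast_pow, Nat.cast_ofNat]
      linarith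
    have := Int.eq_zero_of_abs_lt_dvd hab hlt
    linarith
  have n1 := abs_nonneg v.1
  have n2 := abs_nonneg v.2
  have n3 := abs_nonneg u.1
  have n4 := abs_nonneg u.2
  have e1 : v.1 = u.1 := key _ _ (congrFun hm 0) (by linarith) (by linarith)
  have e2 : v.2 = u.2 := key _ _ (congrFun hm 1) (by linarith) (by linarith)
  have := hbig.2
  have hv0 : v.1 * v.2 = 0 := by rw [hv]; split <;> simp
  rw [← e1, ← e2, hv0, mul_zero] at this
  exact lt_irrefl _ this

theorem pos_injOn {g : ℕ} (w : ℕ → Gen) (hw : ∀ j, w (j + 1) ≠ flipL (w j)) (x : SG g)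
    {i j : ℕ} (hi : i ≤ g) (hj : j ≤ g) (h : pos w x i = pos w x j) : i = j := by
  wlog hij : i ≤ j generalizing i j
  · exact (this hj hi h.symm (le_of_not_ge hij)).symm
  obtain ⟨d, rfl⟩ := Nat.exists_eq_add_of_le hij
  cases d with
  | zero => rfl
  | succ l =>
    exfalso
    rw [pos_add, pos_eq (fun k => w (i + k))] at h
    exact pos_ne_one (fun k => w (i + k)) (fun k => hw (i + k)) (by omega : l + 1 ≤ g)
      (mul_right_cancel (h.symm.trans (one_mul _).symm))

theorem card_SG_le (g : ℕ) : Fintype.card (SG g) ≤ 81 ^ (g + 1) := by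
  refine (Fintype.card_le_of_injective (Units.val : SG g → _) Units.val_injective).trans ?_
  have h : modulus g ≤ 3 ^ (g + 1) := by
    have := Nat.one_le_pow g 3 (by norm_num)
    rw [modulus, pow_succ]; omega
  calc Fintype.card (Matrix (Fin 2) (Fin 2) (ZMod (modulus g))) = (modulus g) ^ 4 := by
        rw [← Nat.card_eq_fintype_card]
        simp [Matrix, Nat.card_fun, Nat.card_zmod, ← pow_mul]
    _ ≤ (3 ^ (g + 1)) ^ 4 := Nat.pow_le_pow_left h 4
    _ = 81 ^ (g + 1) := by rw [← pow_mul, mul_comm, pow_mul]; norm_num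

/-- The number of vertices of the pieces built before stage `n`. -/
def total : ℕ → ℕ
  | 0 => 0
  | n + 1 => total n + Fintype.card (SG (total n + 1))

/-- The girth parameter of piece `n`. -/
def girth (n : ℕ) : ℕ := total n + 1

/-- The vertices of piece `n`. -/
abbrev Piece (n : ℕ) : Type := SG (girth n)

theorem sum_card_lt (n : ℕ) : ∑ k : Fin n, Fintype.card (Piece k) < 2 ^ girth n := by
  have h : ∀ n, ∑ k : Fin n, Fintype.card (Piece k) = total n := by
    intro n
    induction n with
    | zero => simp [total]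
    | succ n ih =>
      rw [Fin.sum_univ_castSucc]
      simp only [Fin.val_castSucc, Fin.val_last, ih]
      rfl
  rw [h]
  exact (Nat.lt_succ_self _).trans Nat.lt_two_pow_self

/-- The unoriented edge used when leaving `x` by the generator `t`. -/
def edgeOf {g : ℕ} (t : Gen) (x : SG g) : SG g × Fin 2 :=
  if t.2 then (x, t.1) else (genU g t * x, t.1)

theorem edgeOf_flip {g : ℕ} (t : Gen) (x : SG g) :
    edgeOf (flipL t) (genU g t * x) = edgeOf t x := by
  obtain ⟨i, b⟩ := t
  cases b
  · simp [edgeOf, flipL]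
  · have : genU g (flipL (i, true)) * (genU g (i, true) * x) = x := by
      rw [genU_flip, inv_mul_cancel_left]
    simpa [edgeOf, flipL] using this

/-- The edges along a short reduced walk are distinct. -/
theorem edgeOf_injective {g : ℕ} (w : ℕ → Gen) (hw : ∀ j, w (j + 1) ≠ flipL (w j)) (x : SG g) :
    Function.Injective fun j : Fin g => edgeOf (w j) (pos w x j) := by
  have hend : ∀ j : ℕ, ({pos w x j, pos w x (j + 1)} : Set (SG g)) =
      {(edgeOf (w j) (pos w x j)).1,
        genU g ((edgeOf (w j) (pos w x j)).2, true) * (edgeOf (w j) (pos w x j)).1} := by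
    intro j
    rcases hwj : w j with ⟨i, b⟩
    cases b
    · have e1 : genU g (i, true) * (genU g (i, false) * pos w x j) = pos w x j := by
        rw [show ((i, true) : Gen) = flipL (i, false) from rfl, genU_flip, inv_mul_cancel_left]
      simp only [edgeOf, pos, hwj, Bool.false_eq_true, if_false, e1]
      exact Set.pair_comm _ _
    · simp [edgeOf, pos, hwj]
  intro a b hab
  simp only at hab
  have h := (hend a).trans ((by rw [hab]) : _ = _) |>.trans (hend b).symm
  have hp : ∀ i j, i ≤ g → j ≤ g → pos w x i = pos w x j → i = j :=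
    fun i j hi hj => pos_injOn w hw x hi hj
  have h1 : pos w x a ∈ ({pos w x b, pos w x (b + 1)} : Set (SG g)) := h ▸ Set.mem_insert _ _
  have h2 : pos w x (a + 1) ∈ ({pos w x b, pos w x (b + 1)} : Set (SG g)) :=
    h ▸ Set.mem_insert_of_mem _ rfl
  rcases h1 with h1 | h1 <;> rcases h2 with h2 | h2 <;>
    have := hp _ _ (by omega) (by omega) h1 <;>
    have := hp _ _ (by omega) (by omega) h2 <;>
    exact Fin.ext (by omega)

/-- A tag for each edge. -/
abbrev Tagging (n : ℕ) : Type := Piece n × Fin 2 → Fin numTags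

/-- No reduced walk of length `girth n` in piece `n` reads like one in an earlier piece. -/
def Separated (n : ℕ) (tag : Tagging n) (old : ∀ k : Fin n, Tagging k) : Prop :=
  ∀ (k : Fin n) (x : Piece n) (h : Piece k) (w : ℕ → Gen),
    (∀ j, w (j + 1) ≠ flipL (w j)) →
      ¬ ∀ j < girth n, tag (edgeOf (w j) (pos w x j)) = old k (edgeOf (w j) (pos w h j))

theorem pos_congr {g : ℕ} {w w' : ℕ → Gen} (x : SG g) :
    ∀ {j : ℕ}, (∀ i < j, w i = w' i) → pos w x j = pos w' x j
  | 0, _ => rfl
  | j + 1, h => by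
    simp only [pos]
    rw [h j (Nat.lt_succ_self j), pos_congr x fun i hi => h i (Nat.lt_succ_of_lt hi)]

theorem card_prescribed {Z : Type*} [Fintype Z] {g K : ℕ} (e : Fin g → Z)
    (he : Function.Injective e) (c : Fin g → Fin K) :
    (Finset.univ.filter fun f : Z → Fin K => ∀ j, f (e j) = c j).card * K ^ g
      ≤ K ^ Fintype.card Z := by
  have h : Fintype.card ({f : Z → Fin K // ∀ j, f (e j) = c j} × (Fin g → Fin K)) ≤
      Fintype.card (Z → Fin K) := by
    refine Fintype.card_le_of_injective
      (fun p => fun z => if h : ∃ j, e j = z then p.2 h.choose else p.1.1 z) ?_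
    rintro ⟨⟨t1, ht1⟩, s1⟩ ⟨⟨t2, ht2⟩, s2⟩ h
    have hs : s1 = s2 := funext fun j => by
      have hj : ∃ i, e i = e j := ⟨j, rfl⟩
      have := congrFun h (e j)
      simp only [dif_pos hj, he hj.choose_spec] at this
      exact this
    have ht : t1 = t2 := funext fun z => by
      by_cases hz : ∃ i, e i = z
      · obtain ⟨i, rfl⟩ := hz
        rw [ht1, ht2]
      · have := congrFun h z
        simpa only [dif_neg hz] using this
    simp [hs, ht]
  simpa [Fintype.card_prod, Fintype.card_subtype] using h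

theorem exists_avoid {I Z : Type*} [Fintype I] [Fintype Z] {g K : ℕ} (hK : 0 < K)
    (hI : Fintype.card I < K ^ g) (e : I → Fin g → Z) (c : I → Fin g → Fin K) :
    ∃ f : Z → Fin K, ∀ q, Function.Injective (e q) → ¬ ∀ j, f (e q j) = c q j := by
  set bad : I → Finset (Z → Fin K) := fun q =>
    Finset.univ.filter fun f => Function.Injective (e q) ∧ ∀ j, f (e q j) = c q j with hbd
  have hbad : ∀ q, (bad q).card * K ^ g ≤ K ^ Fintype.card Z := by
    intro q
    by_cases hinj : Function.Injective (e q)
    · simpa [hbd, hinj] using card_prescribed (e q) hinj (c q)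
    · simp [hbd, hinj]
  have hsmall : ((Finset.univ : Finset I).biUnion bad).card * K ^ g
      < K ^ Fintype.card Z * K ^ g := by
    calc ((Finset.univ : Finset I).biUnion bad).card * K ^ g
        ≤ (∑ q : I, (bad q).card) * K ^ g := Nat.mul_le_mul_right _ Finset.card_biUnion_le
      _ ≤ Fintype.card I * K ^ Fintype.card Z := by
          rw [Finset.sum_mul]
          exact (Finset.sum_le_sum fun q _ => hbad q).trans (by simp)
      _ < K ^ g * K ^ Fintype.card Z := Nat.mul_lt_mul_of_pos_right hI (Nat.pow_pos hK)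
      _ = _ := mul_comm _ _
  have hlt : ((Finset.univ : Finset I).biUnion bad).card < Fintype.card (Z → Fin K) := by
    simpa using Nat.lt_of_mul_lt_mul_right hsmall
  obtain ⟨f, hf⟩ : ∃ f, f ∉ (Finset.univ : Finset I).biUnion bad := by
    by_contra hall
    push Not at hall
    rw [Finset.eq_univ_iff_forall.2 hall, Finset.card_univ] at hlt
    exact lt_irrefl _ hlt
  refine ⟨f, fun q hinj hq => hf (Finset.mem_biUnion.2 ⟨q, Finset.mem_univ _, ?_⟩)⟩
  simp [hbd, hinj, hq]

/-- A finite window of a walk, extended arbitrarily. -/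
def extWord {g : ℕ} (u : Fin g → Gen) (j : ℕ) : Gen := if h : j < g then u ⟨j, h⟩ else (0, true)

theorem card_index_lt {g s N : ℕ} (hN : N ≤ 81 ^ (g + 1)) (hs : s ≤ 2 ^ g) (hg : 1 ≤ g) :
    N * (s * 4 ^ g) < numTags ^ g := by
  calc N * (s * 4 ^ g) ≤ 81 ^ (g + 1) * (2 ^ g * 4 ^ g) :=
        Nat.mul_le_mul hN (Nat.mul_le_mul_right _ hs)
    _ ≤ 81 ^ (2 * g) * 8 ^ g := by
        rw [← Nat.mul_pow]
        exact Nat.mul_le_mul_right _ (Nat.pow_le_pow_right (by norm_num) (by omega))
    _ = (81 * 81 * 8) ^ g := by rw [pow_mul, ← Nat.mul_pow]; norm_num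
    _ < numTags ^ g := Nat.pow_lt_pow_left (by norm_num [numTags]) (by omega)

theorem exists_separated (n : ℕ) (old : ∀ k : Fin n, Tagging k) :
    ∃ tag : Tagging n, Separated n tag old := by
  obtain ⟨tag, htag⟩ := exists_avoid (K := numTags) (g := girth n)
    (I := Piece n × (Σ k : Fin n, Piece k) × (Fin (girth n) → Gen))
    (by unfold numTags; omega)
    (by
      simp only [Fintype.card_prod, Fintype.card_sigma, Fintype.card_fun, Fintype.card_fin,
        Fintype.card_bool]
      exact card_index_lt (card_SG_le _) (sum_card_lt n).le (Nat.le_add_left 1 _))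
    (fun q j => edgeOf (extWord q.2.2 j) (pos (extWord q.2.2) q.1 j))
    (fun q j => old q.2.1.1 (edgeOf (extWord q.2.2 j) (pos (extWord q.2.2) q.2.1.2 j)))
  refine ⟨tag, fun k x h w hw hall => ?_⟩
  have hext : ∀ j, j < girth n → extWord (fun i : Fin (girth n) => w i) j = w j :=
    fun j hj => by simp [extWord, hj]
  have hpos : ∀ {g' : ℕ} (y : SG g') (j : ℕ), j ≤ girth n →
      pos (extWord fun i : Fin (girth n) => w i) y j = pos w y j :=
    fun y j hj => pos_congr y fun i hi => hext i (by omega)
  refine htag (x, ⟨k, h⟩, fun j => w j) ?_ ?_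
  · intro a b hab
    simp only [hext _ a.2, hext _ b.2, hpos _ _ a.2.le, hpos _ _ b.2.le] at hab
    exact edgeOf_injective w hw x hab
  · intro j
    simp only [hext _ j.2, hpos _ _ j.2.le]
    exact hall j j.2

/-- The chosen tags. -/
def tags (n : ℕ) : Tagging n :=
  (exists_separated n fun k => tags k).choose
termination_by n
decreasing_by all_goals omega

theorem tags_separated (n : ℕ) : Separated n (tags n) fun k => tags k := by
  rw [tags]
  exact (exists_separated n fun k => tags k).choose_spec

/-- The letters of the big free group. -/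
abbrev Lam : Type := Fin 2 × Fin numTags

/-- The vertices of all the pieces, with one extra isolated vertex `none`. -/
abbrev Vert : Type := Option (Σ n, Piece n)

/-- One labelled step inside the pieces. -/
def pieceStep (t : Lam × Bool) : Vert → Option Vert
  | none => none
  | some ⟨n, x⟩ =>
    if tags n (edgeOf (t.1.1, t.2) x) = t.1.2 then some (some ⟨n, genU _ (t.1.1, t.2) * x⟩)
    else none

/-- The labelled graph made of all pieces. -/
def pieces : LGraph Lam Vert where
  step := pieceStep
  rev := by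
    rintro ⟨⟨i, τ⟩, b⟩ (_ | ⟨n, x⟩) v' h
    · simp [pieceStep] at h
    · simp only [pieceStep] at h
      split at h
      case isTrue ht =>
        cases h
        have hf := edgeOf_flip (i, b) x
        have hu := genU_flip (girth n) (i, b)
        simp only [flipL] at hf hu
        simp [pieceStep, flipL, hf, ht, hu, inv_mul_cancel_left]
      case isFalse => simp at h

/-- The letter read when leaving `x` by the generator `t`. -/
def lab {n : ℕ} (t : Gen) (x : Piece n) : Lam × Bool := ((t.1, tags n (edgeOf t x)), t.2)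

theorem lab_flip {n : ℕ} (t : Gen) (x : Piece n) :
    lab (flipL t) (genU _ t * x) = flipL (lab t x) := by
  simp only [lab, edgeOf_flip]
  rfl

theorem step_lab {n : ℕ} (t : Gen) (x : Piece n) :
    pieces.step (lab t x) (some ⟨n, x⟩) = some (some ⟨n, genU _ t * x⟩) := by
  simp [pieces, pieceStep, lab]

theorem step_none_vertex (t : Lam × Bool) : pieces.step t none = none := rfl

theorem step_some {t : Lam × Bool} {n : ℕ} {x : Piece n} {v : Vert}
    (h : pieces.step t (some ⟨n, x⟩) = some v) :
    tags n (edgeOf (t.1.1, t.2) x) = t.1.2 ∧ v = some ⟨n, genU _ (t.1.1, t.2) * x⟩ := by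
  simp only [pieces, pieceStep] at h
  split at h
  case isTrue ht => exact ⟨ht, (Option.some.inj h).symm⟩
  case isFalse => simp at h

/-- A long reduced walk in piece `n` cannot be followed in an earlier piece. -/
theorem no_common_walk {n : ℕ} (w : ℕ → Gen) (x : ℕ → Piece n)
    (hx : ∀ j, x (j + 1) = genU _ (w j) * x j)
    (hw : ∀ j, lab (w (j + 1)) (x (j + 1)) ≠ flipL (lab (w j) (x j)))
    (v : ℕ → Vert) (hv : ∀ j, pieces.step (lab (w j) (x j)) (v j) = some (v (j + 1)))
    (hold : ∀ k y, v 0 = some ⟨k, y⟩ → k < n) : False := by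
  rcases hv0 : v 0 with _ | ⟨k, y⟩
  · have h := hv 0
    rw [hv0, step_none_vertex] at h
    simp at h
  · have hk := hold k y hv0
    have hred : ∀ j, w (j + 1) ≠ flipL (w j) := fun j h => hw j (by rw [h, hx j, lab_flip])
    have hvj : ∀ j, v j = some ⟨k, pos w y j⟩ := by
      intro j
      induction j with
      | zero => exact hv0
      | succ j ih =>
        have h := hv j
        rw [ih] at h
        simpa [lab, pos] using (step_some h).2
    have hxj : ∀ j, x j = pos w (x 0) j := by
      intro j
      induction j with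
      | zero => rfl
      | succ j ih => rw [hx, pos, ← ih]
    refine tags_separated n ⟨k, hk⟩ (x 0) y w hred fun j _ => ?_
    have h := hv j
    rw [hvj] at h
    have := (step_some h).1
    simp only [lab] at this
    rw [← hxj]
    exact this.symm

end Vale.Agent.P090
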