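import Mathlib
import Vale.Agent.P090.Completion
import Vale.Agent.P090.Lift
import Vale.Agent.P090.Pieces

/-!
The uniformly discrete metric space: for every level, a finite quotient of the free group times
the vertices of the pieces, with a hub.
-/

noncomputable section

open Classical

namespace Vale.Agent.P090

/-- The spoke length at level `l`. -/
def rad (l : ℕ) : ℕ := 64 * (l + 1)

/-- The cut-off radius at level `l`. -/
def bigR (l : ℕ) : ℕ := 64 * (l + 1) * rad l

theorem bigR_pos (l : ℕ) : 0 < bigR l := by unfold bigR rad; positivity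

theorem rad_le_bigR (l : ℕ) : rad l ≤ bigR l := by
  unfold bigR; exact Nat.le_mul_of_pos_left _ (by omega)

/-- The finite group at level `l`. -/
def QQ (l : ℕ) : Type := (exists_finite_quotient Lam (bigR l + 1)).choose

instance (l : ℕ) : Group (QQ l) :=
  (exists_finite_quotient Lam (bigR l + 1)).choose_spec.choose

instance (l : ℕ) : Finite (QQ l) :=
  (exists_finite_quotient Lam (bigR l + 1)).choose_spec.choose_spec.choose

instance (l : ℕ) : Fintype (QQ l) := Fintype.ofFinite _

/-- The quotient map at level `l`. -/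
def qq (l : ℕ) : FreeGroup Lam →* QQ l :=
  (exists_finite_quotient Lam (bigR l + 1)).choose_spec.choose_spec.choose_spec.choose

theorem qq_injOn (l : ℕ) : Set.InjOn (qq l) {w | FreeGroup.norm w ≤ bigR l + 1} :=
  (exists_finite_quotient Lam (bigR l + 1)).choose_spec.choose_spec.choose_spec.choose_spec

/-- The points of the space; `none` is the hub. -/
def Node : Type := Option (Σ l : ℕ, QQ l × Vert)

instance : Countable Node := inferInstanceAs (Countable (Option (Σ l : ℕ, QQ l × Vert)))

/-- A point of level `l`. -/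
def node (l : ℕ) (g : QQ l) (v : Vert) : Node := some ⟨l, (g, v)⟩

/-- The hub. -/
def hub : Node := none

/-- The weighted edges. -/
inductive Edge : Node → Node → ℕ → Prop
  | move (l : ℕ) (g : QQ l) (t : Lam × Bool) (v v' : Vert) (h : pieces.step t v = some v') :
      Edge (node l g v) (node l (qq l (letterF t) * g) v') 1
  | spoke (l : ℕ) (g : QQ l) (v : Vert) (h : v ≠ none) :
      Edge (node l g none) (node l g v) (rad l)
  | toHub (l : ℕ) (g : QQ l) : Edge hub (node l g none) (bigR l)

/-- Weighted walks. -/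
inductive Reach : Node → Node → ℕ → Prop
  | refl (x : Node) : Reach x x 0
  | fwd {x y z : Node} {k n : ℕ} : Edge x y k → Reach y z n → Reach x z (k + n)
  | bwd {x y z : Node} {k n : ℕ} : Edge y x k → Reach y z n → Reach x z (k + n)

theorem Reach.trans {x y z : Node} {a b : ℕ} (h : Reach x y a) (h' : Reach y z b) :
    Reach x z (a + b) := by
  induction h with
  | refl => simpa using h'
  | fwd e _ ih => rw [Nat.add_assoc]; exact Reach.fwd e (ih h')
  | bwd e _ ih => rw [Nat.add_assoc]; exact Reach.bwd e (ih h')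

theorem Reach.single {x y : Node} {k : ℕ} (e : Edge x y k) : Reach x y k :=
  Reach.fwd e (Reach.refl y)

theorem Reach.symm {x y : Node} {a : ℕ} (h : Reach x y a) : Reach y x a := by
  induction h with
  | refl => exact Reach.refl _
  | fwd e _ ih =>
    rw [Nat.add_comm]
    exact ih.trans (Reach.bwd e (Reach.refl _))
  | bwd e _ ih =>
    rw [Nat.add_comm]
    exact ih.trans (Reach.fwd e (Reach.refl _))

theorem Edge.one_le {x y : Node} {k : ℕ} (e : Edge x y k) : 1 ≤ k := by
  cases e with
  | move => exact le_rfl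
  | spoke => unfold rad; omega
  | toHub l => exact bigR_pos l

theorem reach_base (l : ℕ) (g : QQ l) (v : Vert) :
    ∃ n, n ≤ bigR l + rad l ∧ Reach hub (node l g v) n := by
  by_cases h : v = none
  · subst h
    exact ⟨bigR l, Nat.le_add_right _ _, Reach.single (Edge.toHub l g)⟩
  · exact ⟨bigR l + rad l, le_rfl,
      (Reach.single (Edge.toHub l g)).trans (Reach.single (Edge.spoke l g v h))⟩

theorem exists_reach (x y : Node) : ∃ n, Reach x y n := by
  have h : ∀ x, ∃ n, Reach hub x n := by
    rintro (_ | ⟨l, g, v⟩)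
    · exact ⟨0, Reach.refl _⟩
    · obtain ⟨n, _, hn⟩ := reach_base l g v
      exact ⟨n, hn⟩
  obtain ⟨a, ha⟩ := h x
  obtain ⟨b, hb⟩ := h y
  exact ⟨a + b, ha.symm.trans hb⟩

/-- Shortest weighted walk. -/
def ndist (x y : Node) : ℕ := Nat.find (exists_reach x y)

theorem ndist_le {x y : Node} {n : ℕ} (h : Reach x y n) : ndist x y ≤ n := Nat.find_le h

theorem reach_ndist (x y : Node) : Reach x y (ndist x y) := Nat.find_spec (exists_reach x y)

theorem eq_of_reach_zero {x y : Node} {n : ℕ} (h : Reach x y n) (hn : n = 0) : x = y := by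
  cases h with
  | refl => rfl
  | fwd e _ => have := e.one_le; omega
  | bwd e _ => have := e.one_le; omega

instance : MetricSpace Node where
  dist x y := (ndist x y : ℝ)
  dist_self x := by
    have : ndist x x = 0 := Nat.le_zero.1 (ndist_le (Reach.refl x))
    simp [this]
  dist_comm x y := by
    exact congrArg Nat.cast
      (le_antisymm (ndist_le (reach_ndist y x).symm) (ndist_le (reach_ndist x y).symm))
  dist_triangle x y z := by
    exact_mod_cast ndist_le ((reach_ndist x y).trans (reach_ndist y z))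
  eq_of_dist_eq_zero {x y} h :=
    eq_of_reach_zero (reach_ndist x y) (by exact_mod_cast h)

theorem dist_le_of_reach {x y : Node} {n : ℕ} (h : Reach x y n) : dist x y ≤ (n : ℝ) :=
  Nat.cast_le.2 (ndist_le h)

theorem one_le_dist {x y : Node} (h : x ≠ y) : (1 : ℝ) ≤ dist x y := by
  have : ndist x y ≠ 0 := fun h0 => h (eq_of_reach_zero (reach_ndist x y) h0)
  exact Nat.one_le_cast.2 (Nat.one_le_iff_ne_zero.2 this)

/-- A symmetric gauge bounded on edges is bounded by the distance. -/
theorem gauge_le (ρ : Node → Node → ℝ) (hself : ∀ a, ρ a a ≤ 0) (hsymm : ∀ a b, ρ a b = ρ b a)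
    (htri : ∀ a b c, ρ a c ≤ ρ a b + ρ b c) (K : ℝ)
    (hK : ∀ a b k, Edge a b k → ρ a b ≤ K * k) (x y : Node) : ρ x y ≤ K * dist x y := by
  have : ∀ {a b : Node} {n : ℕ}, Reach a b n → ρ a b ≤ K * n := by
    intro a b n h
    induction h with
    | refl a => simpa using hself a
    | @fwd x y z k n e _ ih =>
      push_cast
      linarith [htri x y z, hK _ _ _ e]
    | @bwd x y z k n e _ ih =>
      push_cast
      linarith [htri x y z, hK _ _ _ e, hsymm x y]
  exact this (reach_ndist x y)

/-- The part of a point at level `l`. -/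
def slice (l : ℕ) : Node → Option (QQ l × Vert)
  | none => none
  | some ⟨l', p⟩ => if h : l' = l then some (h ▸ p) else none

theorem slice_node (l : ℕ) (g : QQ l) (v : Vert) : slice l (node l g v) = some (g, v) := by
  simp [slice, node]

theorem slice_node_ne {l l' : ℕ} (h : l' ≠ l) (g : QQ l') (v : Vert) :
    slice l (node l' g v) = none := by
  simp [slice, node, h]

theorem slice_hub (l : ℕ) : slice l hub = none := rfl

/-- The coefficient seen from `g₀`. -/
def coefAt (l : ℕ) (g₀ : QQ l) (p : Node) : ℝ :=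
  match slice l p with
  | none => 0
  | some (g, _) => cof (qq l) (bigR l) (g * g₀⁻¹)

/-- The lifted position seen from `g₀`, translated by `s`. -/
def indexAt (l : ℕ) (g₀ : QQ l) (s : FreeGroup Lam) (p : Node) : Compl pieces :=
  match slice l p with
  | none => coreC pieces none
  | some (g, v) => complHom pieces (s * (lft (qq l) (bigR l) (g * g₀⁻¹))⁻¹) (coreC pieces v)

/-- The lifted vector of a point. -/
def liftVec (l : ℕ) (g₀ : QQ l) (s : FreeGroup Lam) (p : Node) (τ : Compl pieces) : ℝ :=
  if τ = indexAt l g₀ s p then coefAt l g₀ p else 0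

theorem abs_coefAt_le_one (l : ℕ) (g₀ : QQ l) (p : Node) : |coefAt l g₀ p| ≤ 1 := by
  unfold coefAt
  split
  · simp
  · exact abs_cof_le_one _ _ _

theorem coefAt_hub (l : ℕ) (g₀ : QQ l) : coefAt l g₀ hub = 0 := rfl

theorem liftVec_hub (l : ℕ) (g₀ : QQ l) (s : FreeGroup Lam) (τ : Compl pieces) :
    liftVec l g₀ s hub τ = 0 := by
  simp [liftVec, coefAt_hub]

theorem coefAt_self (l : ℕ) (g₀ : QQ l) (v : Vert) : coefAt l g₀ (node l g₀ v) = 1 := by
  simp [coefAt, slice_node, cof_one (qq_injOn l) (bigR_pos l)]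

theorem sum_abs_single_sub_le {ι : Type*} (U : Finset ι) (i j : ι) (a b : ℝ) :
    ∑ τ ∈ U, |(if τ = i then a else 0) - (if τ = j then b else 0)| ≤ |a| + |b| := by
  calc ∑ τ ∈ U, |(if τ = i then a else 0) - (if τ = j then b else 0)|
      ≤ ∑ τ ∈ U, ((if τ = i then |a| else 0) + (if τ = j then |b| else 0)) :=
        Finset.sum_le_sum fun τ _ => by
          split <;> split <;> first | exact abs_sub _ _ | simp [abs_nonneg]
    _ ≤ |a| + |b| := by
        rw [Finset.sum_add_distrib, Finset.sum_ite_eq', Finset.sum_ite_eq']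
        split <;> split <;> simp [abs_nonneg, add_nonneg]

theorem sum_abs_single_le {ι : Type*} (U : Finset ι) (i : ι) (a : ℝ) :
    ∑ τ ∈ U, |if τ = i then a else 0| ≤ |a| := by
  calc ∑ τ ∈ U, |if τ = i then a else 0| = ∑ τ ∈ U, (if τ = i then |a| else 0) :=
        Finset.sum_congr rfl fun τ _ => by split <;> simp
    _ ≤ |a| := by
        rw [Finset.sum_ite_eq']
        split <;> simp

theorem norm_letterF_le (t : Lam × Bool) : FreeGroup.norm (letterF t) ≤ 1 :=
  FreeGroup.norm_mk_le

/-- Across an edge inside the pieces the position is fixed and the coefficient barely moves. -/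
theorem move_bound (l : ℕ) (g₀ g : QQ l) (s : FreeGroup Lam) (t : Lam × Bool) (v v' : Vert)
    (h : pieces.step t v = some v') :
    |coefAt l g₀ (node l g v) - coefAt l g₀ (node l (qq l (letterF t) * g) v')| ≤ 1 / bigR l ∧
      ∀ U : Finset (Compl pieces),
        ∑ τ ∈ U, |liftVec l g₀ s (node l g v) τ -
          liftVec l g₀ s (node l (qq l (letterF t) * g) v') τ| ≤ 1 / bigR l := by
  obtain ⟨h1, h2⟩ := cof_mul_left (qq_injOn l) (bigR_pos l) (norm_letterF_le t) (g * g₀⁻¹)
  rw [← mul_assoc] at h1 h2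
  have hc : |coefAt l g₀ (node l g v) - coefAt l g₀ (node l (qq l (letterF t) * g) v')|
      ≤ 1 / bigR l := by
    simp only [coefAt, slice_node]
    rw [abs_sub_comm]
    exact h1
  refine ⟨hc, fun U => ?_⟩
  by_cases hz : cof (qq l) (bigR l) (g * g₀⁻¹) ≠ 0 ∨
      cof (qq l) (bigR l) (qq l (letterF t) * g * g₀⁻¹) ≠ 0
  · have hidx : indexAt l g₀ s (node l (qq l (letterF t) * g) v')
        = indexAt l g₀ s (node l g v) := by
      simp only [indexAt, slice_node, h2 hz]
      rw [mul_inv_rev, ← act_core pieces h, ← mul_assoc, map_mul, Equiv.Perm.mul_apply,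
        ← Equiv.Perm.mul_apply (complHom pieces (letterF t)⁻¹), ← map_mul, inv_mul_cancel,
        map_one, Equiv.Perm.one_apply]
    refine le_trans (le_of_eq_of_le (Finset.sum_congr rfl fun τ _ => ?_)
      (sum_abs_single_le U (indexAt l g₀ s (node l g v)) _)) hc
    simp only [liftVec, hidx]
    split <;> simp
  · push Not at hz
    have : ∀ τ, liftVec l g₀ s (node l g v) τ = 0 ∧
        liftVec l g₀ s (node l (qq l (letterF t) * g) v') τ = 0 := by
      intro τ
      simp [liftVec, coefAt, slice_node, hz.1, hz.2]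
    simp [this]

theorem edge_coef_le (l : ℕ) (g₀ : QQ l) {a b : Node} {k : ℕ} (e : Edge a b k) :
    |coefAt l g₀ a - coefAt l g₀ b| ≤ 1 / (bigR l : ℝ) * k := by
  have hR : (0 : ℝ) < bigR l := by exact_mod_cast bigR_pos l
  cases e with
  | move l' g t v v' h =>
    by_cases hl : l' = l
    · subst hl
      simpa using (move_bound l' g₀ g 1 t v v' h).1
    · simp [coefAt, slice_node_ne hl, div_nonneg]
  | spoke l' g v h =>
    by_cases hl : l' = l
    · subst hl
      simp [coefAt, slice_node]
      positivity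
    · simp [coefAt, slice_node_ne hl]
      positivity
  | toHub l' g =>
    by_cases hl : l' = l
    · subst hl
      rw [one_div_mul_cancel hR.ne', coefAt_hub, zero_sub, abs_neg]
      exact abs_coefAt_le_one _ _ _
    · simp [coefAt, slice_node_ne hl, slice_hub]
      positivity

theorem edge_vec_le (l : ℕ) (g₀ : QQ l) (s : FreeGroup Lam) (U : Finset (Compl pieces))
    {a b : Node} {k : ℕ} (e : Edge a b k) :
    ∑ τ ∈ U, |liftVec l g₀ s a τ - liftVec l g₀ s b τ| ≤ 2 / (rad l : ℝ) * k := by
  have hr : (0 : ℝ) < rad l := by unfold rad; positivity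
  have hR : (0 : ℝ) < bigR l := by exact_mod_cast bigR_pos l
  have hrR : (rad l : ℝ) ≤ bigR l := by exact_mod_cast rad_le_bigR l
  have hzero : ∀ (l' : ℕ) (g : QQ l') (v : Vert), l' ≠ l → ∀ τ,
      liftVec l g₀ s (node l' g v) τ = 0 := by
    intro l' g v hl τ
    simp [liftVec, coefAt, slice_node_ne hl]
  cases e with
  | move l' g t v v' h =>
    by_cases hl : l' = l
    · subst hl
      refine ((move_bound l' g₀ g s t v v' h).2 U).trans ?_
      rw [Nat.cast_one, mul_one]
      exact div_le_div₀ zero_le_two one_le_two hr hrR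
    · simp [hzero _ _ _ hl, div_nonneg]
  | spoke l' g v h =>
    by_cases hl : l' = l
    · subst hl
      refine (sum_abs_single_sub_le U _ _ _ _).trans ?_
      rw [div_mul_cancel₀ _ hr.ne']
      linarith [abs_coefAt_le_one l' g₀ (node l' g none), abs_coefAt_le_one l' g₀ (node l' g v)]
    · simp [hzero _ _ _ hl]
      positivity
  | toHub l' g =>
    by_cases hl : l' = l
    · subst hl
      refine (sum_abs_single_sub_le U _ _ _ _).trans ?_
      rw [coefAt_hub, abs_zero, zero_add, div_mul_eq_mul_div, le_div_iff₀ hr]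
      nlinarith [abs_coefAt_le_one l' g₀ (node l' g none)]
    · simp [hzero _ _ _ hl, liftVec_hub]
      positivity

theorem coef_lipschitz (l : ℕ) (g₀ : QQ l) (a b : Node) :
    |coefAt l g₀ a - coefAt l g₀ b| ≤ 1 / (bigR l : ℝ) * dist a b :=
  gauge_le (fun a b => |coefAt l g₀ a - coefAt l g₀ b|) (by simp) (fun a b => abs_sub_comm _ _)
    (fun a b c => abs_sub_le _ _ _) _ (fun _ _ _ e => edge_coef_le l g₀ e) a b

theorem vec_lipschitz (l : ℕ) (g₀ : QQ l) (s : FreeGroup Lam) (U : Finset (Compl pieces))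
    (a b : Node) :
    ∑ τ ∈ U, |liftVec l g₀ s a τ - liftVec l g₀ s b τ| ≤ 2 / (rad l : ℝ) * dist a b :=
  gauge_le (fun a b => ∑ τ ∈ U, |liftVec l g₀ s a τ - liftVec l g₀ s b τ|) (by simp)
    (fun a b => Finset.sum_congr rfl fun τ _ => abs_sub_comm _ _)
    (fun a b c => by
      rw [← Finset.sum_add_distrib]
      exact Finset.sum_le_sum fun τ _ => abs_sub_le _ _ _)
    _ (fun _ _ _ e => edge_vec_le l g₀ s U e) a b

theorem shift_sup (l : ℕ) (g₀ : QQ l) (t : Lam × Bool) (U : Finset (Compl pieces)) (p : Node) :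
    ∑ τ ∈ U, |liftVec l g₀ 1 p τ - liftVec l (qq l (letterF t) * g₀) (letterF t)⁻¹ p τ|
      ≤ 1 / (bigR l : ℝ) := by
  rcases hp : slice l p with _ | ⟨g, v⟩
  · simp [liftVec, coefAt, hp]
  · have hmul : g * (qq l (letterF t) * g₀)⁻¹ = g * g₀⁻¹ * qq l (letterF t)⁻¹ := by
      rw [map_inv, mul_inv_rev, mul_assoc]
    obtain ⟨h1, h2⟩ := cof_mul_right (qq_injOn l) (bigR_pos l)
      (t := (letterF t)⁻¹) (by rw [FreeGroup.norm_inv_eq]; exact norm_letterF_le t) (g * g₀⁻¹)
    by_cases hz : cof (qq l) (bigR l) (g * g₀⁻¹) ≠ 0 ∨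
        cof (qq l) (bigR l) (g * g₀⁻¹ * qq l (letterF t)⁻¹) ≠ 0
    · have hidx : indexAt l (qq l (letterF t) * g₀) (letterF t)⁻¹ p = indexAt l g₀ 1 p := by
        simp only [indexAt, hp, hmul, h2 hz]
        simp
      calc ∑ τ ∈ U, |liftVec l g₀ 1 p τ -
            liftVec l (qq l (letterF t) * g₀) (letterF t)⁻¹ p τ|
          = ∑ τ ∈ U, |if τ = indexAt l g₀ 1 p then
              coefAt l g₀ p - coefAt l (qq l (letterF t) * g₀) p else 0| :=
            Finset.sum_congr rfl fun τ _ => by
              simp only [liftVec, hidx]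
              split <;> simp
        _ ≤ _ := sum_abs_single_le U _ _
        _ ≤ _ := by
            simp only [coefAt, hp, hmul]
            rw [abs_sub_comm]
            exact h1
    · push Not at hz
      have : ∀ τ, liftVec l g₀ 1 p τ = 0 ∧
          liftVec l (qq l (letterF t) * g₀) (letterF t)⁻¹ p τ = 0 := fun τ => by
        simp only [liftVec, coefAt, hp, hmul, hz.1, hz.2, ite_self, and_self]
      simp [this]

theorem shift_lipschitz (l : ℕ) (g₀ : QQ l) (t : Lam × Bool) (U : Finset (Compl pieces))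
    (a b : Node) :
    ∑ τ ∈ U, |(liftVec l g₀ 1 a τ - liftVec l (qq l (letterF t) * g₀) (letterF t)⁻¹ a τ) -
        (liftVec l g₀ 1 b τ - liftVec l (qq l (letterF t) * g₀) (letterF t)⁻¹ b τ)|
      ≤ 2 / (bigR l : ℝ) * dist a b := by
  rcases eq_or_ne a b with rfl | hab
  · simp
  · refine le_trans (Finset.sum_le_sum fun τ _ => abs_sub _ _) ?_
    rw [Finset.sum_add_distrib]
    have h2 : (2 : ℝ) / bigR l * 1 ≤ 2 / bigR l * dist a b :=
      mul_le_mul_of_nonneg_left (one_le_dist hab) (by positivity)
    have e : (2 : ℝ) / bigR l = 1 / bigR l + 1 / bigR l := by ring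
    linarith [shift_sup l g₀ t U a, shift_sup l g₀ t U b]

theorem baseC_indexAt {S : Set Vert} (hS : ∀ t v v', pieces.step t v = some v' → v ∈ S → v' ∈ S)
    (hnone : (none : Vert) ∈ S) (l : ℕ) (g₀ : QQ l) (s : FreeGroup Lam) (p : Node)
    (hp : ∀ g v, slice l p = some (g, v) → v ∈ S) :
    baseC pieces (indexAt l g₀ s p) ∈ S := by
  unfold indexAt
  split
  · exact hnone
  · next g v h => exact baseC_act_mem pieces hS _ _ (hp g v h)

end Vale.Agent.P090
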