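import Mathlib
import Vale.Agent.P090.FreeSpace
import Vale.Agent.P090.Forest
import Vale.Agent.P090.Space

/-!
The Lipschitz-free space of the uniformly discrete space fails the bounded approximation property.
-/

noncomputable section

open Classical

namespace Vale.Agent.P090

section general

variable {M : Type*} [MetricSpace M] {o : M}

local instance lipFreeNormed : NormedAddCommGroup (lipFree o) := Submodule.normedAddCommGroup _

local instance lipFreeAdd : AddCommGroup (lipFree o) := (lipFree o).addCommGroup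

/-- A finite combination of evaluations. -/
def comb (o : M) (S : Finset M) (c : M → ℝ) : StrongDual ℝ (LipZero o) :=
  ∑ p ∈ S, c p • delta o p

/-- Testing a combination of evaluations against a vector-valued Lipschitz map. -/
theorem sum_abs_pair_le {ι : Type*} (U : Finset ι) (S : Finset M) (c : M → ℝ) (a : ℝ) (e : M)
    (H : M → ι → ℝ) (h0 : ∀ τ, H o τ = 0) {K : ℝ} (hK0 : 0 ≤ K)
    (hK : ∀ p p', ∑ τ ∈ U, |H p τ - H p' τ| ≤ K * dist p p') :
    ∑ τ ∈ U, |∑ p ∈ S, c p * H p τ - a * H e τ| ≤ K * ‖comb o S c - a • delta o e‖ := by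
  set v : ι → ℝ := fun τ => ∑ p ∈ S, c p * H p τ - a * H e τ with hv
  set s : ι → ℝ := fun τ => if 0 ≤ v τ then 1 else -1 with hs
  set f : M → ℝ := fun p => ∑ τ ∈ U, s τ * H p τ with hf
  have hsv : ∀ τ, s τ * v τ = |v τ| := by
    intro τ
    by_cases h : 0 ≤ v τ
    · simp [hs, h, abs_of_nonneg h]
    · simp [hs, h, abs_of_neg (lt_of_not_ge h)]
  have hs1 : ∀ τ, |s τ| = 1 := fun τ => by simp only [hs]; split <;> simp
  have hlip : ∀ x y, |f x - f y| ≤ K * dist x y := by
    intro x y
    refine le_trans ?_ (hK x y)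
    simp only [hf, ← Finset.sum_sub_distrib]
    refine (Finset.abs_sum_le_sum_abs _ _).trans (Finset.sum_le_sum fun τ _ => ?_)
    rw [← mul_sub, abs_mul, hs1, one_mul]
  let F : LipZero o := ⟨f, by simp [hf, h0], K, hlip⟩
  have hF : ‖F‖ ≤ K := lipConst_le F hK0 hlip
  have hval : (comb o S c - a • delta o e) F = ∑ τ ∈ U, |v τ| := by
    rw [Finset.sum_congr rfl fun τ _ => (hsv τ).symm]
    simp only [comb, ContinuousLinearMap.sub_apply, FunLike.coe_smul, Pi.smul_apply,
      ContinuousLinearMap.coe_sum', Finset.sum_apply, smul_eq_mul]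
    change ∑ p ∈ S, c p * f p - a * f e = _
    simp only [hf, hv, mul_sub, Finset.mul_sum, Finset.sum_sub_distrib]
    rw [Finset.sum_comm]
    congr 1
    · exact Finset.sum_congr rfl fun τ _ => Finset.sum_congr rfl fun p _ => by ring
    · exact Finset.sum_congr rfl fun τ _ => by ring
  calc ∑ τ ∈ U, |v τ| = (comb o S c - a • delta o e) F := hval.symm
    _ ≤ ‖comb o S c - a • delta o e‖ * ‖F‖ :=
        (le_abs_self _).trans ((comb o S c - a • delta o e).le_opNorm F)
    _ ≤ _ := by
        rw [mul_comm K]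
        exact mul_le_mul_of_nonneg_left hF (norm_nonneg _)

theorem exists_comb (ξ : lipFree o) {ε : ℝ} (hε : 0 < ε) :
    ∃ (S : Finset M) (c : M → ℝ),
      (∀ p, p ∉ S → c p = 0) ∧ ‖(ξ : StrongDual ℝ (LipZero o)) - comb o S c‖ ≤ ε := by
  have h : (ξ : StrongDual ℝ (LipZero o)) ∈
      closure ((Submodule.span ℝ (Set.range (delta o)) : Submodule ℝ _) : Set _) := ξ.2
  obtain ⟨η, hη, hd⟩ := Metric.mem_closure_iff.1 h ε hε
  obtain ⟨c, hc⟩ := Finsupp.mem_span_range_iff_exists_finsupp.1 hη
  refine ⟨c.support, c, fun p hp => by simpa using hp, ?_⟩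
  rw [dist_eq_norm, ← hc] at hd
  exact hd.le

/-- A bounded part of a finite-dimensional subspace is near combinations on one finite set. -/
theorem exists_uniform_comb (V : Submodule ℝ (lipFree o)) [FiniteDimensional ℝ V] (B : ℝ)
    {ε : ℝ} (hε : 0 < ε) :
    ∃ S : Finset M, ∀ ξ : lipFree o, ξ ∈ V → ‖ξ‖ ≤ B →
      ∃ c : M → ℝ, ‖(ξ : StrongDual ℝ (LipZero o)) - comb o S c‖ ≤ ε := by
  have : ProperSpace V := FiniteDimensional.proper ℝ V
  obtain ⟨t, _, htfin, hcov⟩ :=
    (isCompact_closedBall (0 : V) B).finite_cover_balls (half_pos hε)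
  choose S c hsupp hS using fun η : V => exists_comb (η : lipFree o) (half_pos hε)
  refine ⟨htfin.toFinset.biUnion S, fun ξ hξ hB => ?_⟩
  have hmem : (⟨ξ, hξ⟩ : V) ∈ Metric.closedBall (0 : V) B := by
    rw [mem_closedBall_zero_iff]; exact hB
  obtain ⟨η, hη, hd⟩ := Set.mem_iUnion₂.1 (hcov hmem)
  refine ⟨c η, ?_⟩
  have hsub : S η ⊆ htfin.toFinset.biUnion S := fun p hp =>
    Finset.mem_biUnion.2 ⟨η, htfin.mem_toFinset.2 hη, hp⟩
  have hext : comb o (htfin.toFinset.biUnion S) (c η) = comb o (S η) (c η) := by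
    unfold comb
    exact (Finset.sum_subset hsub fun p _ hp => by simp [hsupp η p hp]).symm
  rw [hext]
  rw [Metric.mem_ball, dist_eq_norm] at hd
  have hd' : ‖(ξ : StrongDual ℝ (LipZero o)) - ((η : lipFree o) : StrongDual ℝ (LipZero o))‖
      < ε / 2 := hd
  have := norm_sub_le_norm_sub_add_norm_sub (ξ : StrongDual ℝ (LipZero o))
    ((η : lipFree o) : StrongDual ℝ (LipZero o)) (comb o (S η) (c η))
  linarith [hS η]

end general

/-- The four signed generators, enumerated. -/
def genEquiv : Gen ≃ Fin 4 := Fintype.equivFinOfCardEq (by simp)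

/-- The vertices seen in the earlier pieces. -/
def oldSet (n : ℕ) : Set Vert := {v | ∀ k y, v = some ⟨k, y⟩ → k < n}

theorem oldSet_step (n : ℕ) :
    ∀ t v v', pieces.step t v = some v' → v ∈ oldSet n → v' ∈ oldSet n := by
  rintro t (_ | ⟨k, x⟩) v' h hv
  · simp [step_none_vertex] at h
  · obtain ⟨_, rfl⟩ := step_some h
    intro k' y hk
    simp only [Option.some.injEq] at hk
    obtain ⟨rfl, -⟩ := Sigma.mk.inj_iff.1 hk
    exact hv k x rfl

theorem none_mem_oldSet (n : ℕ) : (none : Vert) ∈ oldSet n := by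
  intro k y h; simp at h

/-- The graph on pairs (vertex of piece `n`, position). -/
def pairNb (n : ℕ) (z : Piece n × Compl pieces) (i : Fin 4) : Piece n × Compl pieces :=
  (genU _ (genEquiv.symm i) * z.1,
    complHom pieces (letterF (lab (genEquiv.symm i) z.1)) z.2)

/-- The index of the edge back. -/
def pairRev (i : Fin 4) : Fin 4 := genEquiv (flipL (genEquiv.symm i))

theorem pairNb_rev (n : ℕ) (z : Piece n × Compl pieces) (i : Fin 4) :
    pairNb n (pairNb n z i) (pairRev i) = z := by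
  unfold pairNb pairRev
  simp only [Equiv.symm_apply_apply, lab_flip, letterF_flip, map_inv, genU_flip,
    inv_mul_cancel_left]
  simp

theorem pairRev_injective : Function.Injective pairRev := by
  intro i j h
  have h' := genEquiv.injective h
  have := congrArg flipL h'
  simp only [flipL_flipL] at this
  exact genEquiv.symm.injective this

theorem pair_leaf (n : ℕ) (A : Finset (Piece n × Compl pieces)) (hA : A.Nonempty)
    (hold : ∀ z ∈ A, baseC pieces z.2 ∈ oldSet n) : ∃ z ∈ A, innerDeg (pairNb n) A z ≤ 1 := by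
  by_contra hcon
  push Not at hcon
  have hnext : ∀ s : {s : (Piece n × Compl pieces) × Fin 4 // s.1 ∈ A ∧ pairNb n s.1 s.2 ∈ A},
      ∃ s' : {s : (Piece n × Compl pieces) × Fin 4 // s.1 ∈ A ∧ pairNb n s.1 s.2 ∈ A},
        s'.1.1 = pairNb n s.1.1 s.1.2 ∧ s'.1.2 ≠ pairRev s.1.2 := by
    rintro ⟨⟨z, i⟩, hz, hnz⟩
    obtain ⟨j, hj, hne⟩ := Finset.exists_mem_ne (hcon _ hnz) (pairRev i)
    exact ⟨⟨(_, j), hnz, (by simp only [Finset.mem_filter] at hj; exact hj.2)⟩, rfl, hne⟩
  choose next hnext1 hnext2 using hnext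
  obtain ⟨z₀, hz₀⟩ := hA
  obtain ⟨i₀, hi₀⟩ := Finset.card_pos.1 (lt_of_le_of_lt (Nat.zero_le 1) (hcon z₀ hz₀))
  let st : ℕ → {s : (Piece n × Compl pieces) × Fin 4 // s.1 ∈ A ∧ pairNb n s.1 s.2 ∈ A} :=
    fun j => next^[j] ⟨(z₀, i₀), hz₀, by simpa using hi₀⟩
  have hst : ∀ j, st (j + 1) = next (st j) := fun j => Function.iterate_succ_apply' _ _ _
  set w : ℕ → Gen := fun j => genEquiv.symm (st j).1.2 with hw
  set x : ℕ → Piece n := fun j => (st j).1.1.1 with hx
  set τ : ℕ → Compl pieces := fun j => (st j).1.1.2 with hτ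
  have hxs : ∀ j, x (j + 1) = genU _ (w j) * x j := fun j => by
    simp only [hx, hw, hst, hnext1]; rfl
  have hτs : ∀ j, τ (j + 1) = complHom pieces (letterF (lab (w j) (x j))) (τ j) := fun j => by
    simp only [hτ, hx, hw, hst, hnext1]; rfl
  have hred : ∀ j, lab (w (j + 1)) (x (j + 1)) ≠ flipL (lab (w j) (x j)) := by
    intro j h
    rw [← lab_flip, ← hxs] at h
    have h' : w (j + 1) = flipL (w j) := by
      have a := congrArg (fun t : Lam × Bool => ((t.1.1, t.2) : Gen)) h
      simpa [lab] using a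
    apply hnext2 (st j)
    rw [← hst]
    have := congrArg genEquiv h'
    simpa [hw, pairRev] using this
  have hfin : (Set.range τ).Finite :=
    (A.finite_toSet.image Prod.snd).subset (by
      rintro _ ⟨j, rfl⟩
      exact ⟨(st j).1.1, (st j).2.1, rfl⟩)
  obtain ⟨J, hJ⟩ := exists_core_of_finite pieces (fun j => lab (w j) (x j)) hred τ hτs hfin
  refine no_common_walk (fun j => w (J + j)) (fun j => x (J + j)) (fun j => hxs (J + j))
    (fun j => hred (J + j)) (fun j => baseC pieces (τ (J + j))) (fun j => ?_) ?_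
  · obtain ⟨v, v', h1, h2, h3⟩ := hJ (J + j) (Nat.le_add_right _ _)
    have e1 : baseC pieces (τ (J + j)) = v := congrArg Prod.snd h1
    have e2 : baseC pieces (τ (J + (j + 1))) = v' := congrArg Prod.snd h3
    simp only [e1, e2]
    exact h2
  · intro k y h
    exact hold _ (st (J + 0)).2.1 k y h

theorem pair_gradient (n : ℕ) (U : Finset (Compl pieces))
    (hU : ∀ τ ∈ U, baseC pieces τ ∈ oldSet n) (F : Piece n × Compl pieces → ℝ)
    (hF : ∀ z, 0 ≤ F z) (hsupp : ∀ z, z.2 ∉ U → F z = 0) :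
    2 * ∑ z ∈ (Finset.univ ×ˢ U : Finset (Piece n × Compl pieces)), F z ≤
      ∑ z ∈ (Finset.univ ×ˢ U : Finset (Piece n × Compl pieces)),
        ∑ i, max 0 (F z - F (pairNb n z i)) := by
  set A₀ : Finset (Piece n × Compl pieces) := Finset.univ ×ˢ U with hA₀
  refine two_mul_sum_le_grad (pairNb n) A₀
    (two_mul_card_le_outer (pairNb n) (fun _ => pairRev) (pairNb_rev n)
      (fun _ _ _ _ h => pairRev_injective h) A₀ ?_) A₀ subset_rfl F hF ?_
  · intro A hAA hA
    exact pair_leaf n A hA fun z hz => hU _ (Finset.mem_product.1 (hAA hz)).2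
  · intro z hz
    exact hsupp z fun h => hz (Finset.mem_product.2 ⟨Finset.mem_univ _, h⟩)

theorem exists_old_bound (l : ℕ) (S : Finset Node) :
    ∃ n, ∀ p ∈ S, ∀ g v, slice l p = some (g, v) → v ∈ oldSet n := by
  refine ⟨S.sup (fun p => match slice l p with
    | some (_, some ⟨k, _⟩) => k + 1
    | _ => 0), fun p hp g v h k y hv => ?_⟩
  subst hv
  refine lt_of_lt_of_le (Nat.lt_succ_self k) (le_trans (le_of_eq ?_) (Finset.le_sup hp))
  simp [h]

theorem dist_hub_le (l : ℕ) (g : QQ l) (v : Vert) :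
    dist (node l g v) hub ≤ (bigR l : ℝ) + rad l := by
  obtain ⟨k, hk, hr⟩ := reach_base l g v
  rw [dist_comm]
  refine (dist_le_of_reach hr).trans ?_
  exact_mod_cast hk

theorem dist_spoke_le (l : ℕ) (g : QQ l) (n : ℕ) (x : Piece n) :
    dist (node l g (some ⟨n, x⟩)) (node l g none) ≤ (rad l : ℝ) := by
  rw [dist_comm]
  exact dist_le_of_reach (Reach.single (Edge.spoke l g _ (by simp)))

/-- The bound on the gradient across one edge. -/
theorem edge_bound (l : ℕ) (S : Finset Node) (U : Finset (Compl pieces)) (g : QQ l)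
    (t : Lam × Bool) (cx cy : Node → ℝ) {A B : ℝ}
    (hA : ‖comb hub S cx - delta hub (node l g none)‖ ≤ A)
    (hB : ‖comb hub S cx - comb hub S cy‖ ≤ B) :
    ∑ τ ∈ U, |∑ p ∈ S, cx p * liftVec l g 1 p τ -
        ∑ p ∈ S, cy p * liftVec l (qq l (letterF t) * g) (letterF t)⁻¹ p τ|
      ≤ 2 / (rad l : ℝ) * B + 2 / (bigR l : ℝ) * A + 1 / (bigR l : ℝ) := by
  set H : Node → Compl pieces → ℝ := liftVec l g 1
  set H' : Node → Compl pieces → ℝ := liftVec l (qq l (letterF t) * g) (letterF t)⁻¹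
  set e := node l g none
  have h1 : ∑ τ ∈ U, |∑ p ∈ S, (cx p - cy p) * H' p τ - (0 : ℝ) * H' e τ| ≤
      2 / (rad l : ℝ) * B := by
    refine (sum_abs_pair_le (o := hub) U S (fun p => cx p - cy p) 0 e H' (liftVec_hub _ _ _)
      (by positivity) (vec_lipschitz _ _ _ U)).trans
      (mul_le_mul_of_nonneg_left ?_ (by positivity))
    have e : comb hub S (fun p => cx p - cy p) = comb hub S cx - comb hub S cy := by
      ext F
      simp [comb, sub_mul, Finset.sum_sub_distrib]
    rw [e, zero_smul, sub_zero]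
    exact hB
  have h2 : ∑ τ ∈ U, |∑ p ∈ S, cx p * (H p τ - H' p τ) - (1 : ℝ) * (H e τ - H' e τ)| ≤
      2 / (bigR l : ℝ) * A := by
    refine (sum_abs_pair_le (o := hub) U S cx 1 e (fun p τ => H p τ - H' p τ)
      (fun τ => by simp [H, H', liftVec_hub]) (by positivity) (shift_lipschitz _ _ _ U)).trans
      (mul_le_mul_of_nonneg_left ?_ (by positivity))
    simpa using hA
  have h3 : ∑ τ ∈ U, |H e τ - H' e τ| ≤ 1 / (bigR l : ℝ) := shift_sup l g t U e
  calc ∑ τ ∈ U, |∑ p ∈ S, cx p * H p τ - ∑ p ∈ S, cy p * H' p τ|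
      ≤ ∑ τ ∈ U, (|∑ p ∈ S, (cx p - cy p) * H' p τ - (0 : ℝ) * H' e τ| +
          |∑ p ∈ S, cx p * (H p τ - H' p τ) - (1 : ℝ) * (H e τ - H' e τ)| +
          |H e τ - H' e τ|) := by
        refine Finset.sum_le_sum fun τ _ => ?_
        refine le_trans (le_of_eq ?_) (abs_add_three _ _ _)
        congr 1
        simp only [sub_mul, mul_sub, Finset.sum_sub_distrib]
        ring
    _ ≤ _ := by
        rw [Finset.sum_add_distrib, Finset.sum_add_distrib]
        linarith

theorem abs_coef_sum_ge (l : ℕ) (S : Finset Node) (g : QQ l) (cx : Node → ℝ) {A : ℝ}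
    (hA : ‖comb hub S cx - delta hub (node l g none)‖ ≤ A) :
    1 - 1 / (bigR l : ℝ) * A ≤ ∑ p ∈ S, cx p * coefAt l g p := by
  have h : ∑ _u ∈ (Finset.univ : Finset Unit),
      |∑ p ∈ S, cx p * coefAt l g p - (1 : ℝ) * coefAt l g (node l g none)| ≤
      1 / (bigR l : ℝ) * A := by
    refine (sum_abs_pair_le (o := hub) Finset.univ S cx 1 (node l g none)
      (fun p (_ : Unit) => coefAt l g p) (fun _ => coefAt_hub _ _) (by positivity)
      (fun p p' => by simpa using coef_lipschitz l g p p')).trans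
      (mul_le_mul_of_nonneg_left ?_ (by positivity))
    simpa using hA
  simp only [Finset.univ_unique, Finset.sum_singleton, coefAt_self, mul_one] at h
  linarith [(abs_le.1 h).1]

theorem lift_translate (l : ℕ) (g : QQ l) (u : FreeGroup Lam) (p : Node) (τ : Compl pieces) :
    liftVec l g 1 p (complHom pieces u τ) =
      (if τ = (complHom pieces u)⁻¹ (indexAt l g 1 p) then coefAt l g p else 0) := by
  unfold liftVec
  refine if_congr ?_ rfl rfl
  rw [Equiv.Perm.inv_def, ← Equiv.apply_eq_iff_eq_symm_apply]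

theorem liftVec_translate (l : ℕ) (g : QQ l) (u : FreeGroup Lam) (p : Node) (τ : Compl pieces) :
    liftVec l g 1 p (complHom pieces u τ) = liftVec l g u⁻¹ p τ := by
  rw [lift_translate]
  rcases hp : slice l p with _ | ⟨h, v⟩
  · simp [liftVec, coefAt, hp]
  · unfold liftVec
    refine if_congr ?_ rfl rfl
    simp [indexAt, hp, map_mul, map_inv]

theorem no_bap : ¬ HasBAP (lipFree (hub : Node)) := by
  rintro ⟨lam, hlam1, hBAP⟩
  obtain ⟨l, hl⟩ := exists_nat_ge lam
  have hC : IsCompact (Set.range fun g : QQ l => fdelta hub (node l g none)) :=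
    (Set.finite_range _).isCompact
  obtain ⟨T, hTfin, hTnorm, hT⟩ := hBAP _ hC (1 / 4) (by norm_num)
  obtain ⟨S, hS⟩ := exists_uniform_comb (LinearMap.range T.toLinearMap)
    (lam * ((bigR l : ℝ) + rad l)) (show (0 : ℝ) < 1 / 4 by norm_num)
  obtain ⟨n, hn⟩ := exists_old_bound l S
  -- approximate images of the points of piece `n`
  have happ : ∀ q : QQ l × Piece n, ∃ c : Node → ℝ,
      ‖(T (fdelta hub (node l q.1 (some ⟨n, q.2⟩))) : StrongDual ℝ (LipZero (hub : Node))) -
        comb hub S c‖ ≤ 1 / 4 := by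
    intro q
    refine hS _ ⟨_, rfl⟩ ((T.le_opNorm _).trans ?_)
    refine mul_le_mul hTnorm ?_ (norm_nonneg (fdelta hub (node l q.1 (some ⟨n, q.2⟩)) :
      StrongDual ℝ (LipZero (hub : Node)))) (by linarith)
    refine le_trans (ContinuousLinearMap.opNorm_le_bound _ dist_nonneg fun f => ?_)
      (dist_hub_le l q.1 (some ⟨n, q.2⟩))
    show ‖f.fn (node l q.1 (some ⟨n, q.2⟩))‖ ≤ _
    rw [Real.norm_eq_abs, norm_eq_lipConst, mul_comm]
    simpa [LipZero.fn_base] using abs_sub_le_lipConst f (node l q.1 (some ⟨n, q.2⟩)) hub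
  choose c hc using happ
  have hTdiff : ∀ a b : Node,
      ‖(T (fdelta hub a) : StrongDual ℝ (LipZero (hub : Node))) - T (fdelta hub b)‖ ≤
        lam * dist a b := by
    intro a b
    have h := T.le_opNorm (fdelta hub a - fdelta hub b)
    have e : T (fdelta hub a - fdelta hub b) = T (fdelta hub a) - T (fdelta hub b) :=
      T.map_sub _ _
    rw [e] at h
    refine h.trans (mul_le_mul hTnorm (norm_delta_sub_le hub a b)
      (norm_nonneg (fdelta hub a - fdelta hub b : StrongDual ℝ (LipZero (hub : Node))))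
      (by linarith))
  -- distance of the images from the anchors
  have hanch : ∀ q : QQ l × Piece n,
      ‖comb hub S (c q) - delta hub (node l q.1 none)‖ ≤ lam * rad l + 1 / 2 := by
    intro q
    have h1 := hc q
    have h2 := (hTdiff (node l q.1 (some ⟨n, q.2⟩)) (node l q.1 none)).trans
      (mul_le_mul_of_nonneg_left (dist_spoke_le l q.1 n q.2) (by linarith))
    have h3 : ‖(T (fdelta hub (node l q.1 none)) : StrongDual ℝ (LipZero (hub : Node))) -
        delta hub (node l q.1 none)‖ ≤ 1 / 4 := (hT _ ⟨q.1, rfl⟩).le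
    rw [norm_sub_rev] at h1
    have t1 := norm_sub_le_norm_sub_add_norm_sub (comb hub S (c q))
      (T (fdelta hub (node l q.1 (some ⟨n, q.2⟩))) : StrongDual ℝ (LipZero (hub : Node)))
      (delta hub (node l q.1 none))
    have t2 := norm_sub_le_norm_sub_add_norm_sub
      (T (fdelta hub (node l q.1 (some ⟨n, q.2⟩))) : StrongDual ℝ (LipZero (hub : Node)))
      (T (fdelta hub (node l q.1 none)) : StrongDual ℝ (LipZero (hub : Node)))
      (delta hub (node l q.1 none))
    linarith
  set f : QQ l → Piece n → Compl pieces → ℝ :=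
    fun g x τ => ∑ p ∈ S, c (g, x) p * liftVec l g 1 p τ with hf
  set U : Finset (Compl pieces) :=
    ((Finset.univ : Finset (QQ l)) ×ˢ S).image fun q => indexAt l q.1 1 q.2 with hU
  have hUold : ∀ τ ∈ U, baseC pieces τ ∈ oldSet n := by
    intro τ hτ
    simp only [hU, Finset.mem_image, Finset.mem_product] at hτ
    obtain ⟨⟨g, p⟩, ⟨-, hp⟩, rfl⟩ := hτ
    exact baseC_indexAt (oldSet_step n) (none_mem_oldSet n) l g 1 p (hn p hp)
  have hfsupp : ∀ g x τ, τ ∉ U → f g x τ = 0 := by
    intro g x τ hτ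
    refine Finset.sum_eq_zero fun p hp => ?_
    have : τ ≠ indexAt l g 1 p := fun h => hτ (h ▸ Finset.mem_image.2
      ⟨(g, p), Finset.mem_product.2 ⟨Finset.mem_univ _, hp⟩, rfl⟩)
    simp [liftVec, this]
  -- each vector has mass at least one half
  have hmass : ∀ g x, (1 / 2 : ℝ) ≤ ∑ τ ∈ U, |f g x τ| := by
    intro g x
    refine le_trans ?_ ((le_abs_self _).trans (Finset.abs_sum_le_sum_abs _ _))
    have he : ∑ τ ∈ U, f g x τ = ∑ p ∈ S, c (g, x) p * coefAt l g p := by
      simp only [hf]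
      rw [Finset.sum_comm]
      refine Finset.sum_congr rfl fun p hp => ?_
      rw [← Finset.mul_sum]
      congr 1
      simp only [liftVec]
      rw [Finset.sum_ite_eq', if_pos]
      exact Finset.mem_image.2 ⟨(g, p), Finset.mem_product.2 ⟨Finset.mem_univ _, hp⟩, rfl⟩
    rw [he]
    refine le_trans ?_ (abs_coef_sum_ge l S g _ (hanch (g, x)))
    have hR : (0 : ℝ) < bigR l := by exact_mod_cast bigR_pos l
    have hrv : (rad l : ℝ) = 64 * (l + 1) := by simp [rad]
    have hRv : (bigR l : ℝ) = 64 * (l + 1) * (64 * (l + 1)) := by simp [bigR, rad]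
    have hl0 : (0 : ℝ) ≤ l := Nat.cast_nonneg l
    rw [le_sub_iff_add_le, ← le_sub_iff_add_le', div_mul_eq_mul_div, one_mul, div_le_iff₀ hR,
      hrv, hRv]
    nlinarith
  -- the edge estimate
  have hedge : ∀ (g : QQ l) (x : Piece n) (w : Gen),
      ∑ τ ∈ U, |f g x τ - f (qq l (letterF (lab w x)) * g) (genU _ w * x)
        (complHom pieces (letterF (lab w x)) τ)| ≤ 1 / 8 := by
    intro g x w
    set t := lab w x
    set g' := qq l (letterF t) * g
    have hd : dist (node l g (some ⟨n, x⟩)) (node l g' (some ⟨n, genU _ w * x⟩)) ≤ 1 := by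
      have := dist_le_of_reach (Reach.single (Edge.move l g t _ _ (step_lab w x)))
      simpa using this
    have hB : ‖comb hub S (c (g, x)) - comb hub S (c (g', genU _ w * x))‖ ≤ lam + 1 / 2 := by
      have h1 := hc (g, x)
      have h2 := hc (g', genU _ w * x)
      have h3 := (hTdiff _ _).trans (mul_le_mul_of_nonneg_left hd (by linarith : (0 : ℝ) ≤ lam))
      rw [norm_sub_rev] at h1
      have t1 := norm_sub_le_norm_sub_add_norm_sub (comb hub S (c (g, x)))
        (T (fdelta hub (node l g (some ⟨n, x⟩))) : StrongDual ℝ (LipZero (hub : Node)))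
        (comb hub S (c (g', genU _ w * x)))
      have t2 := norm_sub_le_norm_sub_add_norm_sub
        (T (fdelta hub (node l g (some ⟨n, x⟩))) : StrongDual ℝ (LipZero (hub : Node)))
        (T (fdelta hub (node l g' (some ⟨n, genU _ w * x⟩))) : StrongDual ℝ (LipZero (hub : Node)))
        (comb hub S (c (g', genU _ w * x)))
      linarith
    have hb := edge_bound l S U g t (c (g, x)) (c (g', genU _ w * x)) (hanch (g, x)) hB
    refine le_trans (le_of_eq ?_) (hb.trans ?_)
    · refine Finset.sum_congr rfl fun τ _ => ?_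
      simp only [hf, g', liftVec_translate]
    · have hR : (0 : ℝ) < bigR l := by exact_mod_cast bigR_pos l
      have hr : (0 : ℝ) < rad l := by unfold rad; positivity
      have hrv : (rad l : ℝ) = 64 * (l + 1) := by simp [rad]
      have hRv : (bigR l : ℝ) = 64 * (l + 1) * (64 * (l + 1)) := by simp [bigR, rad]
      have hl0 : (0 : ℝ) ≤ l := Nat.cast_nonneg l
      have a1 : 2 / (rad l : ℝ) * (lam + 1 / 2) ≤ 1 / 32 := by
        rw [div_mul_eq_mul_div, div_le_iff₀ hr, hrv]; linarith
      have a2 : 2 / (bigR l : ℝ) * (lam * rad l + 1 / 2) ≤ 1 / 16 := by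
        rw [div_mul_eq_mul_div, div_le_iff₀ hR, hrv, hRv]; nlinarith
      have a3 : 1 / (bigR l : ℝ) ≤ 1 / 32 := by
        rw [div_le_iff₀ hR, hRv]; nlinarith
      linarith
  set F : Piece n × Compl pieces → ℝ := fun z => ∑ g, |f g z.1 z.2| with hFdef
  have hgrad := pair_gradient n U hUold F (fun z => Finset.sum_nonneg fun g _ => abs_nonneg _)
    (fun z hz => Finset.sum_eq_zero fun g _ => by simp [hfsupp g z.1 z.2 hz])
  rw [Finset.sum_product, Finset.sum_product] at hgrad
  set N : ℝ := (Fintype.card (Piece n) : ℝ) * (Fintype.card (QQ l) : ℝ) with hN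
  have hlow : N * (1 / 2) ≤ ∑ x : Piece n, ∑ τ ∈ U, F (x, τ) := by
    calc N * (1 / 2) = ∑ _x : Piece n, ∑ _g : QQ l, (1 / 2 : ℝ) := by simp [hN]; ring
      _ ≤ ∑ x : Piece n, ∑ g : QQ l, ∑ τ ∈ U, |f g x τ| :=
          Finset.sum_le_sum fun x _ => Finset.sum_le_sum fun g _ => hmass g x
      _ = _ := Finset.sum_congr rfl fun x _ => Finset.sum_comm
  have hhigh : ∑ x : Piece n, ∑ τ ∈ U, ∑ i, max 0 (F (x, τ) - F (pairNb n (x, τ) i)) ≤
      N * (1 / 2) := by
    calc ∑ x : Piece n, ∑ τ ∈ U, ∑ i, max 0 (F (x, τ) - F (pairNb n (x, τ) i))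
        = ∑ x : Piece n, ∑ i, ∑ τ ∈ U, max 0 (F (x, τ) - F (pairNb n (x, τ) i)) :=
          Finset.sum_congr rfl fun x _ => Finset.sum_comm
      _ ≤ ∑ _x : Piece n, ∑ _i : Fin 4, ∑ _g : QQ l, (1 / 8 : ℝ) := by
          refine Finset.sum_le_sum fun x _ => Finset.sum_le_sum fun i _ => ?_
          refine le_trans (Finset.sum_le_sum fun τ _ => ?_)
            ((le_of_eq Finset.sum_comm).trans
              (Finset.sum_le_sum fun g _ => hedge g x (genEquiv.symm i)))
          refine max_le (Finset.sum_nonneg fun g _ => abs_nonneg _) ?_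
          simp only [hFdef, pairNb]
          rw [← Equiv.sum_comp (Equiv.mulLeft (qq l (letterF (lab (genEquiv.symm i) x))))
            (fun g => |f g (genU _ (genEquiv.symm i) * x)
              (complHom pieces (letterF (lab (genEquiv.symm i) x)) τ)|),
            ← Finset.sum_sub_distrib]
          exact Finset.sum_le_sum fun g _ => abs_sub_abs_le_abs_sub _ _
      _ = _ := by simp [hN]; ring
  have hNpos : 0 < N := by
    have : Nonempty (Piece n) := ⟨1⟩
    have : Nonempty (QQ l) := ⟨1⟩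
    have h1 : (0 : ℝ) < Fintype.card (Piece n) := by exact_mod_cast Fintype.card_pos
    have h2 : (0 : ℝ) < Fintype.card (QQ l) := by exact_mod_cast Fintype.card_pos
    positivity
  linarith

end Vale.Agent.P090
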